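import Crest.Agent.X212.Hm83.Main
import Crest.Agent.X212.Nk89.Idx

/-!
# Row 212, DEC-LLW (helper83): the inverse of `A* A` on weighted spaces
-/

set_option autoImplicit false
set_option linter.unusedSectionVars false
noncomputable section
open scoped Manifold ContDiff Topology InnerProductSpace
open MeasureTheory Set Function Filter Real

namespace Crest.Agent.X212.Hm83
open An An.Pre Sob92 Dec35 Ell97

variable {E : Type} [NormedAddCommGroup E] [NormedSpace ℝ E] [FiniteDimensional ℝ E]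
  [MeasurableSpace E] [BorelSpace E]
  {HM : Type} [TopologicalSpace HM] {I : ModelWithCorners ℝ E HM} [I.Boundaryless]
  {M : Type} [TopologicalSpace M] [ChartedSpace HM M] [IsManifold I ∞ M] [MeasurableSpace M]
  [T2Space M] [BorelSpace M] [SecondCountableTopology M] {ι : Type} [Fintype ι]
  {V W : Type} [NormedAddCommGroup V] [InnerProductSpace ℝ V] [FiniteDimensional ℝ V]
  [NormedAddCommGroup W] [InnerProductSpace ℝ W] [FiniteDimensional ℝ W]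
  {F : Fr I M ι} {C C' : ℕ → ℝ} {A : Op M ι V W}

theorem ex_isp (hF : F.Tame C) {p : M → V →L[ℝ] V} {u : M → V} (hu : Fl F.toPre u)
    (hp : ∀ x, p x (u x) = u x) (k : ℕ) : ∃ h : F.H k p, Is F.toPre k p h u :=
  exists_Is hF.exh hu.sm (hu.fl k) hp

theorem is_op (hA : A.Good F C') {k : ℕ} {h : F.H (k + 1) A.p} {u : M → V}
    (H : Is F.toPre (k + 1) A.p h u) (hu : Sm I u) : Is F.toPre k A.q (A.H F k h) (A.app F u) :=
  H.opH (fun a => ⟨_, hA.σ a⟩) ⟨_, hA.B⟩ hA.qσ (Maps.of_left hA.qB) hu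

theorem fl_op (hF : F.Tame C) (hA : A.Good F C') {u : M → V} (hu : Fl F.toPre u)
    (hp : ∀ x, A.p x (u x) = u x) : Fl F.toPre (A.app F u) :=
  ⟨sm_app hA hu.sm, fun k => let ⟨_, H⟩ := ex_isp hF hu hp (k + 1)
    (is_op hA H hu.sm).FL (sm_app hA hu.sm)⟩

theorem nrm_op (hF : F.Tame C) (hA : A.Good F C') {u : M → V} (hu : Fl F.toPre u)
    (hp : ∀ x, A.p x (u x) = u x) (k : ℕ) :
    F.nrm k (A.app F u) ≤ ‖A.H F k‖ * F.nrm (k + 1) u := by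
  obtain ⟨h, H⟩ := ex_isp hF hu hp (k + 1)
  rw [← H.norm hu.sm, ← (is_op hA H hu.sm).norm (sm_app hA hu.sm)]
  exact (A.H F k).le_opNorm h

theorem eq_of_is {k : ℕ} {p : M → V →L[ℝ] V} {h : F.H k p} {u v : M → V} (H : Is F.toPre k p h u)
    (H' : Is F.toPre k p h v) (hu : Continuous u) (hv : Continuous v) : u = v :=
  have := openPos F.toPre
  (Continuous.ae_eq_iff_eq F.μ hu hv).1 (H.symm.trans H')

theorem fl_smul {f : M → ℝ} {u : M → V} (hf : F.Cb f) (hu : Fl F.toPre u) :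
    Fl F.toPre fun x => f x • u x := fl_app (Cb_clm (ContinuousLinearMap.lsmul ℝ ℝ) hf) hu

theorem app_exp {ψ : M → ℝ} (hψ : Sm I ψ) {u : M → V} (hu : Sm I u) :
    A.app F (fun y => exp (ψ y) • u y) =
      (fun x => exp (ψ x) • A.app F u x) + fun x => sy F A ψ x (exp (ψ x) • u x) := funext fun x => by
  rw [app_smul (Nk89.sm_exp hψ) hu]
  simp [sy, Nk89.D_exp F.toPre hψ, mul_smul, Finset.smul_sum]

theorem sy_ub (hA : A.Good F C') (D : ℕ → ℝ) :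
    ∃ S : ℕ → ℝ, ∀ ψ d, Wd F.toPre ψ d D → F.CBs (sy F A ψ) S :=
  let ⟨S, h⟩ : UB (fun _ : {ψ // ∃ d, Wd F.toPre ψ d D} => F.toPre) fun j => sy F A j.1 :=
    UB.sum fun a => UB.smul ⟨D, fun j => j.2.choose_spec.der a⟩ ⟨C', fun _ => hA.σ a⟩
  ⟨S, fun ψ d k => h ⟨ψ, d, k⟩⟩

theorem sy_small (hA : A.Good F C') {ψ : M → ℝ} {d : ℝ} {D : ℕ → ℝ} (h : Wd F.toPre ψ d D) (hd : 0 ≤ d)
    {u : M → V} (hu : Fl F.toPre u) :
    F.nrm 0 (fun x => sy F A ψ x (u x)) ≤ Fintype.card ι * |C' 0| * d * F.nrm 0 u := by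
  obtain ⟨S, hS⟩ := sy_ub hA D
  refine (nrm_app (C := Fintype.card ι * |C' 0| * d) (hS ψ d h).1 hu.sm (CB_zero.2 fun x =>
    (norm_sum_le _ _).trans ((Finset.sum_le_card_nsmul _ _ (d * |C' 0|) fun a _ => ?_).trans_eq ?_))
    (hu.fl 0)).trans_eq ?_
  · rw [norm_smul]
    exact mul_le_mul (h.sl a x) ((CB_bound ((hA.σ a).2 0) x).trans (le_abs_self _)) (norm_nonneg _) hd
  · rw [nsmul_eq_mul, Finset.card_univ]; ring
  · rw [abs_of_nonneg (by positivity)]; simp [cK]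

theorem l2_alg {X Y : Type} [NormedAddCommGroup X] [InnerProductSpace ℝ X] [NormedAddCommGroup Y]
    [InnerProductSpace ℝ Y] {y g t : X} {z s : Y} {c e : ℝ} (hc : 0 ≤ c) (he : 0 ≤ e) (h : c * e ≤ 1 / 6)
    (h1 : ⟪z + s, z⟫_ℝ = ⟪y, g + t⟫_ℝ) (h2 : ‖s‖ ≤ e * ‖y‖) (h3 : ‖t‖ ≤ e * ‖z‖)
    (h4 : ‖y‖ ≤ c * ‖z + s‖) : ‖z + s‖ + ‖y‖ ≤ (3 * c + 3 * c ^ 2) * ‖g‖ := by
  have a1 := norm_add_le z s
  have n1 := norm_nonneg y
  have n2 := norm_nonneg z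
  have n3 := norm_nonneg g
  have a2 : ‖y‖ ≤ 6 / 5 * (c * ‖z‖) := by nlinarith
  have a3 : e * ‖y‖ ≤ ‖z‖ / 5 := by nlinarith [mul_le_mul_of_nonneg_left a2 he]
  have a4 : ‖z‖ ≤ 2 * (c * ‖g‖) := by
    rw [inner_add_left, inner_add_right, real_inner_self_eq_norm_sq] at h1
    have b1 := (abs_le.1 (abs_real_inner_le_norm s z)).1
    have b2 := real_inner_le_norm y g
    have b3 := real_inner_le_norm y t
    rcases n2.eq_or_lt with k | k
    · rw [← k]; positivity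
    · refine le_of_mul_le_mul_left ?_ k
      nlinarith [mul_le_mul_of_nonneg_left h3 n1, mul_le_mul_of_nonneg_right (h2.trans a3) n2,
        mul_le_mul_of_nonneg_right a3 n2, mul_le_mul_of_nonneg_right a2 n3]
  nlinarith [mul_le_mul_of_nonneg_left a4 hc, mul_nonneg hc n3, mul_nonneg hc (mul_nonneg hc n3)]

theorem llw : LlwStmt I M ι := by
  intro F C C' hF X X' _ _ _ _ _ _ A hA hc c h0
  obtain ⟨C'', hB⟩ := good_adj hF hA
  have low : ∀ x : F.H 1 A.p, ‖F.incl 1 0 A.p x‖ ≤ |c| * ‖A.H F 0 x‖ :=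
    H_le (by fun_prop) (by fun_prop) fun u => by
      rw [incl_toH zero_le_one, H_toH hA, norm_toH, norm_toH]
      exact (h0 u).trans (mul_le_mul_of_nonneg_right (le_abs_self c) (nrm_nonneg _ _))
  have bij : ∀ k, Bijective ((Hs F A k).comp (A.H F (k + 1))) :=
    Nk89.LL_bij_of_low (hlf hF hA hc) low
  have is2 : ∀ {k : ℕ} {h : F.H (k + 2) A.p} {u : M → X}, Is F.toPre (k + 2) A.p h u → Sm I u →
      Is F.toPre k A.p (((Hs F A k).comp (A.H F (k + 1))) h) ((A.adj F).app F (A.app F u)) :=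
    fun H hu => is_op hB (is_op hA H hu) (sm_app hA hu)
  set e₀ : ℝ := Fintype.card ι * (|C' 0| + |C'' 0|)
  have he₀ : 0 ≤ e₀ := by positivity
  set d := (6 * (|c| * e₀ + 1))⁻¹
  have hd : 0 < d := by positivity
  have hcd : |c| * (e₀ * d) ≤ 1 / 6 := by
    rw [← mul_assoc, ← div_eq_mul_inv, div_le_iff₀ (by positivity)]; linarith
  refine ⟨d, hd, fun k D => ?_⟩
  suffices h : ∃ K ≥ 0, ∀ ξ, Fl F.toPre ξ → (∀ x, A.p x (ξ x) = ξ x) → ∀ ψ, Wd F.toPre ψ d D →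
      nw F.toPre (k + 2) ψ ξ ≤ K * nw F.toPre k ψ ((A.adj F).app F (A.app F ξ)) by
    obtain ⟨K, K0, h⟩ := h
    refine ⟨K, K0, fun f hf hp => ?_⟩
    choose g hg using ex_isp hF hf hp
    choose x hx using fun j => (bij j).2 (g j)
    obtain ⟨ξ, h1, h2, h3, h4⟩ := smooth_of_all hF (x := x 0) fun j hj => by
      obtain ⟨j, rfl⟩ : ∃ i, j = i + 2 := ⟨j - 2, by omega⟩
      refine ⟨x j, (bij 0).1 ?_⟩
      rw [hx, ContinuousLinearMap.comp_apply, ← incl_OpH hA (by omega)]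
      exact (incl_OpH hB j.zero_le _).symm.trans (((hx j ▸ hg j).incl j.zero_le).unique (hg 0))
    have e := eq_of_is (is2 h4 h1.choose_spec.1) (hx 0 ▸ hg 0)
      (sm_app hB (sm_app hA h1.choose_spec.1)).continuous hf.sm.continuous
    exact ⟨ξ, ⟨h1.choose_spec.1, h2⟩, h3, e, e ▸ h ξ ⟨h1.choose_spec.1, h2⟩ h3⟩
  obtain ⟨S, hS⟩ := sy_ub hA D
  obtain ⟨S', hS'⟩ := sy_ub hB D
  have dat : ∀ ξ, Fl F.toPre ξ → (∀ x, A.p x (ξ x) = ξ x) → ∀ ψ, Wd F.toPre ψ d D →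
      ∃ (η g t : M → X) (ζ s : M → X'), (∀ k, nw F.toPre k ψ ξ = F.nrm k η) ∧
        (∀ k, nw F.toPre k ψ ((A.adj F).app F (A.app F ξ)) = F.nrm k g) ∧
        (Fl F.toPre η ∧ ∀ x, A.p x (η x) = η x) ∧ (Fl F.toPre g ∧ ∀ x, A.p x (g x) = g x) ∧
        (Fl F.toPre t ∧ ∀ x, A.p x (t x) = t x) ∧ (Fl F.toPre ζ ∧ ∀ x, A.q x (ζ x) = ζ x) ∧
        (Fl F.toPre s ∧ ∀ x, A.q x (s x) = s x) ∧ A.app F η = ζ + s ∧ (A.adj F).app F ζ = g + t ∧
        (s = fun x => sy F A ψ x (η x)) ∧ t = fun x => sy F (A.adj F) ψ x (ζ x) := by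
    intro ξ hξ hp ψ hψ
    have b := Nk89.cb_exp hψ.sm (fun a => ⟨_, hψ.der a⟩) hψ.bd.choose_spec
    have f1 := fl_op hF hA hξ hp
    have p1 : ∀ x, A.p x (exp (ψ x) • ξ x) = exp (ψ x) • ξ x := fun x => by rw [map_smul, hp]
    have p2 : ∀ x, A.q x (exp (ψ x) • A.app F ξ x) = exp (ψ x) • A.app F ξ x := fun x => by
      rw [map_smul, q_app hA]
    exact ⟨_, _, _, _, _, fun _ => rfl, fun _ => rfl, ⟨fl_smul b hξ, p1⟩,
      ⟨fl_smul b (fl_op hF hB f1 (q_app hA ξ)), fun x => (map_smul _ _ _).trans (congrArg _ (q_app hB _ x))⟩,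
      ⟨fl_app ⟨_, hS' ψ d hψ⟩ (fl_smul b f1), fun x => maps_sy hB ψ x _ (p2 x)⟩, ⟨fl_smul b f1, p2⟩,
      ⟨fl_app ⟨_, hS ψ d hψ⟩ (fl_smul b hξ), fun x => maps_sy hA ψ x _ (p1 x)⟩, app_exp hψ.sm hξ.sm,
      app_exp hψ.sm f1.sm, rfl, rfl⟩
  have step : ∀ k, (∃ K ≥ 0, ∀ ξ, Fl F.toPre ξ → (∀ x, A.p x (ξ x) = ξ x) → ∀ ψ, Wd F.toPre ψ d D →
      nw F.toPre (k + 1) ψ ξ ≤ K * nw F.toPre k ψ ((A.adj F).app F (A.app F ξ))) →
      ∃ K ≥ 0, ∀ ξ, Fl F.toPre ξ → (∀ x, A.p x (ξ x) = ξ x) → ∀ ψ, Wd F.toPre ψ d D →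
      nw F.toPre (k + 2) ψ ξ ≤ K * nw F.toPre k ψ ((A.adj F).app F (A.app F ξ)) := by
    rintro k ⟨K, K0, h⟩
    let L := ContinuousLinearEquiv.ofBijective _ (LinearMap.ker_eq_bot.2 (bij k).1)
      (LinearMap.range_eq_top.2 (bij k).2)
    have c0 := cK_nonneg (ι := ι) k
    have c1 := cK_nonneg (ι := ι) (k + 1)
    refine ⟨‖L.symm.toContinuousLinearMap‖ * (1 + (cK ι k * |S' k| * (‖A.H F k‖ + cK ι k * |S k|) +
      ‖(A.adj F).H F k‖ * (cK ι (k + 1) * |S (k + 1)|)) * K), by positivity, fun ξ hξ hp ψ hψ => ?_⟩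
    have h := h ξ hξ hp ψ hψ
    obtain ⟨η, g, t, ζ, s, e1, e2, f1, f2, f3, f4, f5, e3, e4, e5, e6⟩ := dat ξ hξ hp ψ hψ
    rw [e1, e2] at h ⊢
    obtain ⟨y, hy⟩ := ex_isp hF f1.1 f1.2 (k + 2)
    have b1 : F.nrm (k + 2) η ≤ ‖L.symm.toContinuousLinearMap‖ * F.nrm k ((A.adj F).app F (A.app F η)) := by
      rw [← hy.norm f1.1.sm, ← (is2 hy f1.1.sm).norm (sm_app hB (sm_app hA f1.1.sm))]
      exact (congrArg norm (L.symm_apply_apply y)).ge.trans (L.symm.toContinuousLinearMap.le_opNorm _)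
    rw [e3, funext (app_add f4.1.sm f5.1.sm), e4] at b1
    have b2 := nrm_add hF (fl_add f2.1 f3.1) (fl_op hF hB f5.1 f5.2) k
    have b3 := nrm_add hF f2.1 f3.1 k
    have b4 : ∀ j, F.nrm j s ≤ cK ι j * |S j| * F.nrm j η := fun j =>
      e5 ▸ nrm_app (hS ψ d hψ).1 f1.1.sm ((hS ψ d hψ).2 j) (f1.1.fl j)
    have b5 : F.nrm k ζ ≤ (‖A.H F k‖ + cK ι k * |S k|) * F.nrm (k + 1) η := by
      rw [eq_sub_of_add_eq e3.symm, add_mul]
      exact (nrm_sub hF (fl_op hF hA f1.1 f1.2) f5.1 k).trans (add_le_add (nrm_op hF hA f1.1 f1.2 k)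
        ((b4 k).trans (mul_le_mul_of_nonneg_left (nrm_mono k.le_succ η) (by positivity))))
    have b6 : F.nrm k t ≤ _ := (e6 ▸ nrm_app (hS' ψ d hψ).1 f4.1.sm ((hS' ψ d hψ).2 k) (f4.1.fl k)).trans
      (mul_le_mul_of_nonneg_left (b5.trans (mul_le_mul_of_nonneg_left h (by positivity))) (by positivity))
    have b7 := (nrm_op hF hB f5.1 f5.2 k).trans (mul_le_mul_of_nonneg_left ((b4 _).trans
      (mul_le_mul_of_nonneg_left h (by positivity))) (norm_nonneg _))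
    rw [mul_assoc]
    exact b1.trans (mul_le_mul_of_nonneg_left (b2.trans (by linarith)) (norm_nonneg _))
  refine step k ?_
  induction k with
  | succ k ih =>
    obtain ⟨K, K0, h⟩ := step k ih
    exact ⟨K, K0, fun ξ hξ hp ψ hψ => (h ξ hξ hp ψ hψ).trans
      (mul_le_mul_of_nonneg_left (nrm_mono k.le_succ _) K0)⟩
  | zero =>
    obtain ⟨K, hK⟩ := gard hF hA hc 0
    refine ⟨|K| * (3 * |c| + 3 * |c| ^ 2), by positivity, fun ξ hξ hp ψ hψ => ?_⟩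
    obtain ⟨η, g, t, ζ, s, e1, e2, f1, f2, f3, f4, f5, e3, e4, e5, e6⟩ := dat ξ hξ hp ψ hψ
    obtain ⟨y, hy⟩ := ex_isp hF f1.1 f1.2 1
    obtain ⟨g', hg⟩ := ex_isp hF f2.1 f2.2 0
    obtain ⟨t', ht⟩ := ex_isp hF f3.1 f3.2 0
    obtain ⟨z, hz⟩ := ex_isp hF f4.1 f4.2 1
    obtain ⟨s', hs⟩ := ex_isp hF f5.1 f5.2 0
    have a1 : A.H F 0 y = F.incl 1 0 A.q z + s' :=
      (is_op hA hy f1.1.sm).unique (e3 ▸ (hz.incl zero_le_one).add hs)
    have a2 : Hs F A 0 z = g' + t' := (is_op hB hz f4.1.sm).unique (e4 ▸ hg.add ht)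
    have n1 := abs_nonneg (C' 0)
    have n2 := abs_nonneg (C'' 0)
    have a3 := l2_alg (abs_nonneg c) (mul_nonneg he₀ hd.le) hcd (a1 ▸ a2 ▸ adjH hF hA y z)
      (by
        rw [hs.norm f5.1.sm, hy.norm_zero, e5]
        refine (sy_small hA hψ hd.le f1.1).trans (mul_le_mul_of_nonneg_right ?_ (nrm_nonneg _ _))
        exact mul_le_mul_of_nonneg_right (mul_le_mul_of_nonneg_left (by linarith) (by positivity)) hd.le)
      (by
        rw [ht.norm f3.1.sm, hz.norm_zero, e6]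
        refine (sy_small hB hψ hd.le f4.1).trans (mul_le_mul_of_nonneg_right ?_ (nrm_nonneg _ _))
        exact mul_le_mul_of_nonneg_right (mul_le_mul_of_nonneg_left (by linarith) (by positivity)) hd.le)
      (a1 ▸ low y)
    rw [e1, e2, ← hy.norm f1.1.sm, ← hg.norm f2.1.sm, mul_assoc]
    exact (hK y).trans ((mul_le_mul_of_nonneg_right (le_abs_self K) (by positivity)).trans
      (mul_le_mul_of_nonneg_left (a1 ▸ a3) (abs_nonneg K)))

end Crest.Agent.X212.Hm83
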