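import Crest.Agent.X212.Dec35.Defs
import Crest.Agent.X212.Rf65.Poi

/-!
# Row 212, DEC-POI (helper83): Poincaré inequalities on the cross-section and on the cylinder
-/

set_option autoImplicit false
set_option linter.unusedSectionVars false
noncomputable section
open scoped Manifold ContDiff Topology InnerProductSpace
open MeasureTheory Set Function Filter Real

namespace Crest.Agent.X212.Hm83
open An An.Pre Sob92 Dec35 Ell97 Map77 Nd18 Cyf70
open Wz78 (nab Skew)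

section gen
variable {E : Type} [NormedAddCommGroup E] [NormedSpace ℝ E] [FiniteDimensional ℝ E]
  [MeasurableSpace E] [BorelSpace E]
  {HM : Type} [TopologicalSpace HM] {I : ModelWithCorners ℝ E HM} [I.Boundaryless]
  {M : Type} [TopologicalSpace M] [ChartedSpace HM M] [IsManifold I ∞ M] [MeasurableSpace M]
  [T2Space M] [BorelSpace M] [SecondCountableTopology M] {ι : Type} [Fintype ι]
  {V W : Type} [NormedAddCommGroup V] [InnerProductSpace ℝ V] [FiniteDimensional ℝ V]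
  [NormedAddCommGroup W] [InnerProductSpace ℝ W] [FiniteDimensional ℝ W]

theorem dim_le {lam : Type} [Fintype lam] {B : Base M ι lam} {G : Geo I M ι lam} (hB : B.OK I)
    (hG : G.OK B) (x : M) : Module.finrank ℝ E ≤ 4 := by
  obtain ⟨U, hU⟩ := Std94.exists_ON (hB.pr x) (hB.rk x)
  refine (finrank_le_of_span_eq_top (R := ℝ) (M := TangentSpace I x)
    (v := fun i : Fin 4 => ∑ b, U i b • G.F.e b x) ?_).trans (by simp)
  refine eq_top_iff.2 ((G.F.span x).ge.trans (Submodule.span_le.2 ?_))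
  rintro _ ⟨a, rfl⟩
  have : G.F.e a x = ∑ i, U i a • ∑ b, U i b • G.F.e b x := by
    rw [← G.F.P_e a x, hG.P]
    simp only [← hU.P, Finset.sum_smul, Finset.smul_sum, smul_smul]
    exact Finset.sum_comm
  show G.F.e a x ∈ _
  rw [this]
  exact Submodule.sum_mem _ fun i _ => Submodule.smul_mem _ _ (Submodule.subset_span ⟨i, rfl⟩)

theorem int_c [CompactSpace M] (F : Pre I M ι) {N : Type} [NormedAddCommGroup N] {f : M → N}
    (hf : Continuous f) : Integrable f F.μ := hf.integrable_of_hasCompactSupport (.of_compactSpace f)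

/-- the Poincaré inequality with a zero order term -/
theorem poi_gen [CompactSpace M] (F : Fr I M ι) (hn : M → Module.finrank ℝ E ≤ 4)
    {A : ι → M → V →L[ℝ] V} (hA : ∀ a, Sm I (A a)) (hs : ∀ a x, Skew (A a x)) {T : M → V →L[ℝ] W}
    (hT : Sm I T) (h0 : ∀ ξ, Sm I ξ → (∀ a x, nab I F.e A a ξ x = 0) → (∀ x, T x (ξ x) = 0) → ξ = 0) :
    ∃ c ≥ 0, ∀ (ξ : M → V) (g : M → ℝ), Sm I ξ → Continuous g →
      (∀ x, ∑ a, ‖nab I F.e A a ξ x‖ ^ 2 + ‖T x (ξ x)‖ ^ 2 ≤ g x) →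
      ∫ x, ‖ξ x‖ ^ 2 ∂F.μ ≤ c * ∫ x, g x ∂F.μ := by
  rcases isEmpty_or_nonempty M with _ | ⟨⟨x₀⟩⟩
  · exact ⟨0, le_rfl, fun _ _ _ _ _ => by simp [integral_of_isEmpty]⟩
  obtain ⟨C, hF⟩ := Cht98.exists_tame F (hn x₀)
  obtain ⟨C', h⟩ := du_nab hF (fun a => Cb_of_compact (hA a)) hs
  have hc := Rf65.cliffL_nab F A
  obtain ⟨K, hK⟩ := gard hF h.g hc 0
  have r := rep_mulH (k := 0) (p := triv M V) (Cb_of_compact (F := F.toPre) hT) (Maps.triv _)
  let L := ((nabOp F A).H F 0).prod ((F.mulH 0 (triv M V) (triv M W) T).comp (F.incl 1 0 _))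
  have h' : Fred93.Est L (F.incl 1 0 _) |K| := fun x => (hK x).trans <|
    (mul_le_mul_of_nonneg_right (le_abs_self K) (by positivity)).trans <|
      mul_le_mul_of_nonneg_left (add_le_add (norm_fst_le (L x)) le_rfl) (abs_nonneg K)
  have e : ∀ u : Sec I (triv M V), ∃ v : Sec I (triv M W), v.1 = (fun x => T x (u.1 x)) ∧
      (L (F.toH 1 _ u)).2 = F.toH 0 _ v := fun u =>
    (r u).imp fun v hv => ⟨hv.1, (congrArg _ (incl_toH zero_le_one u)).trans hv.2⟩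
  obtain ⟨c, hc0, hb⟩ := h'.bound_of_inj (Cht98.rellich zero_lt_one) (by
    refine (injective_iff_map_eq_zero _).2 fun x hx => ?_
    obtain ⟨u, rfl, h2⟩ := sec_of_eq hF h.g hc (w := 0) ((congrArg Prod.fst hx).trans (map_zero _).symm)
    obtain ⟨v, h3, h4⟩ := e u
    obtain rfl : v = 0 := toH_inj F 0 _ (h4.symm.trans ((congrArg Prod.snd hx).trans (map_zero _).symm))
    rw [show u = 0 from Subtype.ext (h0 u.1 u.2.1 (fun a x => by rw [← nabOp_app_apply, h2]; rfl)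
      fun x => (congrFun h3 x).symm), map_zero])
  refine ⟨c ^ 2, by positivity, fun ξ g hξ hg hl => ?_⟩
  let u : Sec I (triv M V) := ⟨ξ, hξ, .of_compactSpace _, fun _ => rfl⟩
  obtain ⟨v, h3, h4⟩ := e u
  have h5 : (L (F.toH 1 _ u)).1 = _ := H_toH h.g 0 u
  have h1 := hb (F.toH 1 _ u)
  rw [Prod.norm_def, h4, h5, norm_toH, norm_toH, norm_toH, h3] at h1
  have h2 := pow_le_pow_left₀ (nrm_nonneg _ _) ((nrm_mono zero_le_one ξ).trans h1) 2
  rw [mul_pow, nrm_sq] at h2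
  refine h2.trans (mul_le_mul_of_nonneg_left ?_ (by positivity))
  have n := fun x => Finset.sum_nonneg fun a (_ : a ∈ Finset.univ) => sq_nonneg ‖nab I F.e A a ξ x‖
  rcases max_choice (F.nrm 0 (LS h.g u).1) (F.nrm 0 fun x => T x (ξ x)) with k | k <;> rw [k, nrm_sq] <;>
    refine integral_mono_of_nonneg (.of_forall fun x => sq_nonneg _) (int_c _ hg)
      (.of_forall fun x => le_trans ?_ (hl x))
  · simp only [LS_val, PiLp.norm_sq_eq_of_L2, nabOp_app_apply]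
    exact le_add_of_nonneg_right (sq_nonneg _)
  · exact le_add_of_nonneg_left (n x)

theorem sq2 (v : P2 V W) : ‖v‖ ^ 2 = ‖f2 V W v‖ ^ 2 + ‖s2 V W v‖ ^ 2 := WithLp.prod_norm_sq_eq_of_L2 v

theorem sm_pr2 {X : Type} [NormedAddCommGroup X] [NormedSpace ℝ X] {A : M → X →L[ℝ] V} {B : M → X →L[ℝ] W}
    (hA : Sm I A) (hB : Sm I B) : Sm I fun x => pr2 (A x) (B x) :=
  (contMDiff_const.clm_comp hA).add (contMDiff_const.clm_comp hB)

variable {lam : Type} [Fintype lam] {r : ℕ} {F : Fr I M ι} {c : Cfg M ι lam r} {l : ℝ} {ξ : M → c.m.A}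

theorem fa_dg (x : M) (a : ι) : fa (dg F c l ξ x) a = -nab I F.e (c.m.adW c.W) a ξ x := by simp [dg]

theorem fp_dg (x : M) : fp (dg F c l ξ x) = l • opL (ξ x) (c.Φ x) := by simp [dg]

theorem sq_dg (x : M) : ‖dg F c l ξ x‖ ^ 2 =
    ∑ a, ‖nab I F.e (c.m.adW c.W) a ξ x‖ ^ 2 + ‖l • opL (ξ x) (c.Φ x)‖ ^ 2 := by
  simp only [sq2, fp_dg, PiLp.norm_sq_eq_of_L2 (fun _ : ι => c.m.A), fa_dg, norm_neg]

theorem sm_adW (h : ∀ a, Sm I (c.W a)) (a : ι) : Sm I (c.m.adW c.W a) := Wz78.adcL.contMDiff.comp (h a)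

theorem cont_dg (h : ∀ a, Sm I (c.W a)) (hΦ : Sm I c.Φ) (hξ : Sm I ξ) : Continuous (dg F c l ξ) :=
  ((i1 _ _).continuous.comp ((PiLp.continuous_toLp 2 _).comp (continuous_pi fun a =>
    (Wz78.sm_nab (sm_adW h) a hξ).continuous.neg))).add ((i2 _ _).continuous.comp
      (((opL.continuous.comp hξ.continuous).clm_apply hΦ.continuous).const_smul l))

theorem hcs_dg (hc : HasCompactSupport ξ) : HasCompactSupport (dg F c l ξ) :=
  HasCompactSupport.intro hc fun x hx => ext2 (PiLp.ext fun a => by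
    rw [fa_dg, nab, dv_eq_zero_of_notMem hx, image_eq_zero_of_notMem_tsupport hx]; simp)
    (by rw [fp_dg, image_eq_zero_of_notMem_tsupport hx]; simp)

end gen

variable {E3 : Type} [NormedAddCommGroup E3] [NormedSpace ℝ E3] [FiniteDimensional ℝ E3]
  [MeasurableSpace E3] [BorelSpace E3]
  {H3 : Type} [TopologicalSpace H3] {I3 : ModelWithCorners ℝ E3 H3} [I3.Boundaryless]
  {Y : Type} [TopologicalSpace Y] [ChartedSpace H3 Y] [IsManifold I3 ∞ Y] [T2Space Y]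
  [MeasurableSpace Y] [BorelSpace Y] [SecondCountableTopology Y] [CompactSpace Y]
  {κ : Type} [Fintype κ] {lam : Type} [Fintype lam] {D : YD I3 Y κ lam} {β : YC Y κ lam}

theorem dimY (h : D.OK) (y : Y) : Module.finrank ℝ E3 ≤ 4 :=
  le_trans (by simp) (dim_le h.B h.G (y, 0))

variable (β) in
/-- the adjoint connection on the cross-section -/
def aY (a : κ) : Y → En (Fin β.m.N × Fin β.m.N) := β.m.adW β.W (some a)

theorem sm_W (h : D.Adm β) (a : Option κ) : Sm (IC I3) ((cy β).W a) := h.adm.conn.cc.sm a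

theorem sm_aY (h : D.Adm β) (a : κ) : Sm I3 (aY β a) := sm_slice_fst (sm_adW (sm_W h) (some a)) 0

theorem sk_aY (h : D.Adm β) (a : κ) (y : Y) : Skew (aY β a y) :=
  Wz78.adc_skw (h.adm.conn.sk (some a) (y, 0))

theorem nab_sl {ξ : Y × ℝ → β.m.A} (hξ : Sm (IC I3) ξ) (a : κ) (x : Y × ℝ) :
    nab I3 D.F.e (aY β) a (fun y => ξ (y, x.2)) x.1 =
      nab (IC I3) D.Z.e ((cy β).m.adW (cy β).W) (some a) ξ x :=
  congrArg (· + _) (D_some D.F.toPre hξ a x).symm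

theorem sum_sl {ξ : Y × ℝ → β.m.A} (hξ : Sm (IC I3) ξ) (x : Y × ℝ) :
    ∑ a, ‖nab I3 D.F.e (aY β) a (fun y => ξ (y, x.2)) x.1‖ ^ 2 ≤
      ∑ a, ‖nab (IC I3) D.Z.e ((cy β).m.adW (cy β).W) a ξ x‖ ^ 2 := by
  simp only [nab_sl hξ, Fintype.sum_option]
  exact le_add_of_nonneg_left (sq_nonneg _)

/-- evaluation on the spinor -/
def evP {K : Type} [Fintype K] [DecidableEq K] : CL (Eu K) (CL (An.HS K) (Eu K)) :=
  ((ContinuousLinearMap.compL ℝ _ _ _).flip opL).comp (ContinuousLinearMap.apply ℝ (Eu K))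

theorem par_cyl (hβ : D.Adm β) {ξ : Y → β.m.A} (hξ : Sm I3 ξ) (h1 : ∀ a y, nab I3 D.F.e (aY β) a ξ y = 0)
    (h2 : ∀ y, ξ y ∈ β.m.gS y) : ParS D.Z (cy β) univ fun x => ξ x.1 :=
  ⟨(sm_fst hξ).contMDiffOn, fun x _ => h2 x.1, fun a x _ => by
    cases a with
    | none =>
      show (cylP D.F.toPre).D none (fun x => ξ x.1) x + adc (β.W none x.1) (ξ x.1) = 0
      rw [D_none_fst _ hξ, hβ.tmp]
      simp [Wz78.adc_apply]
    | some a => exact (nab_sl (sm_fst hξ) a x).symm.trans (h1 a x.1)⟩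

theorem poiY (hD : D.OK) (hβ : D.Adm β) (hI : Irr D β) {l : ℝ} (hl : l ≠ 0) :
    ∃ c ≥ 0, ∀ (ξ : Y → β.m.A) (g : Y → ℝ), Sm I3 ξ → Continuous g → (∀ y, ξ y ∈ β.m.gS y) →
      (∀ y, ∑ a, ‖nab I3 D.F.e (aY β) a ξ y‖ ^ 2 + ‖l • opL (ξ y) (β.Φ y)‖ ^ 2 ≤ g y) →
      ∫ y, ‖ξ y‖ ^ 2 ∂D.F.μ ≤ c * ∫ y, g y ∂D.F.μ := by
  have sg : Sm I3 β.m.pg := sm_slice_fst (Std94.sm_pg hD.B hβ.adm.ok) 0
  have sΦ : Sm I3 β.Φ := sm_slice_fst hβ.adm.sm 0
  obtain ⟨c, c0, h⟩ := poi_gen D.F (dimY hD) (sm_aY hβ) (sk_aY hβ)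
    (T := fun y => pr2 (l • evP (β.Φ y)) (1 - β.m.pg y))
    (sm_pr2 ((contMDiff_const (I' := 𝓘(ℝ, ℝ)) (c := l)).smul (evP.contMDiff.comp sΦ))
      (contMDiff_const.sub sg)) fun ξ hξ h1 h2 => funext fun y => by
    refine hI _ (par_cyl hβ hξ h1 fun y => ?_) (fun x => ?_) (y, 0)
    · have : ξ y - β.m.pg y (ξ y) = 0 := (s2_pr2 _ _ _).symm.trans (congrArg (s2 _ _) (h2 y))
      exact sub_eq_zero.1 this ▸ Wz78.pg_mem y _
    · have : l • opL (ξ x.1) (β.Φ x.1) = 0 := (f2_pr2 _ _ _).symm.trans (congrArg (f2 _ _) (h2 x.1))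
      exact (smul_eq_zero.1 this).resolve_left hl
  refine ⟨c, c0, fun ξ g hξ hg h1 h2 => h ξ g hξ hg fun y => le_trans (le_of_eq ?_) (h2 y)⟩
  rw [sq2, f2_pr2, s2_pr2, show (1 - β.m.pg y) (ξ y) = 0 from sub_eq_zero.2 (Wz78.pg_of_mem (h1 y)).symm]
  simp [evP]

theorem cyl_le {V W : Type} [NormedAddCommGroup V] [InnerProductSpace ℝ V] [NormedAddCommGroup W]
    [InnerProductSpace ℝ W] (F : Pre I3 Y κ) {u : Y × ℝ → V} {w : Y × ℝ → W} (hu : Continuous u)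
    (hc : HasCompactSupport u) (hw : Continuous w) (hc' : HasCompactSupport w) {c : ℝ} (c0 : 0 ≤ c)
    (h : ∀ t, ∫ y, ‖u (y, t)‖ ^ 2 ∂F.μ ≤ c * ∫ y, ‖w (y, t)‖ ^ 2 ∂F.μ) :
    (cylP F).nrm 0 u ≤ √c * (cylP F).nrm 0 w := by
  have c3 : HasCompactSupport fun x => ‖w x‖ ^ 2 := hc'.comp_left (g := (‖·‖ ^ 2)) (by simp)
  have c4 : HasCompactSupport fun x => ‖u x‖ ^ 2 := hc.comp_left (g := (‖·‖ ^ 2)) (by simp)
  have c5 : Continuous fun x => ‖w x‖ ^ 2 := hw.norm.pow 2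
  have i : Integrable (fun x => ‖w x‖ ^ 2) (F.μ.prod volume) :=
    c5.integrable_of_hasCompactSupport (μ := (cylP F).μ) c3
  rw [nrm_eq, nrm_eq, ← sqrt_mul c0]
  refine sqrt_le_sqrt ?_
  show ∫ x, ‖u x‖ ^ 2 ∂(cylP F).μ ≤ c * ∫ x, ‖w x‖ ^ 2 ∂(cylP F).μ
  rw [integral_cyl F (u := fun x => ‖u x‖ ^ 2) (hu.norm.pow 2) c4, integral_cyl F c5 c3, ← integral_const_mul]
  exact integral_mono_of_nonneg (.of_forall fun t => integral_nonneg fun y => sq_nonneg _)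
    (i.integral_prod_right.const_mul c) (.of_forall h)

theorem poi : PoiStmt I3 Y κ lam := by
  intro D β hD hβ hI l hl
  obtain ⟨c, c0, h⟩ := poiY hD hβ hI hl
  refine ⟨√c, fun ξ hξ hc hg => ?_⟩
  have c1 := cont_dg (F := D.Z) (l := l) (sm_W hβ) hβ.adm.sm hξ
  refine cyl_le D.F.toPre hξ.continuous hc c1 (hcs_dg hc) c0 fun t => h _ _ (sm_slice_fst hξ t)
    ((c1.comp (continuous_id.prodMk continuous_const)).norm.pow 2) (fun y => hg (y, t)) fun y => ?_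
  exact (add_le_add (sum_sl hξ (y, t)) le_rfl).trans_eq (sq_dg (c := cy β) (y, t)).symm

end Crest.Agent.X212.Hm83
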