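import Crest.Agent.X212.Dec35.Lv
import Crest.Agent.X212.Dec35.Alg
import Crest.Agent.X212.Hm83.Llw
import Crest.Agent.X212.Hm83.Poi
import Crest.Agent.X212.Cay24.Main
import Crest.Agent.X212.Mon62.Res
import Crest.Agent.X212.Cht98.Cov

/-!
# Row 212, DEC / ST (helper83): one Newton step in the gauge group
-/

set_option autoImplicit false
set_option linter.unusedSectionVars false
noncomputable section
open scoped Manifold ContDiff Topology InnerProductSpace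
open MeasureTheory Set Function Filter Real

namespace Crest.Agent.X212.Hm83
open An An.Pre Map77 Sob92 Dec35 Ell97 Nd18 Cyf70
open Tmp64 (Eq0)

section gen
variable {E : Type} [NormedAddCommGroup E] [NormedSpace ℝ E] [FiniteDimensional ℝ E]
  [MeasurableSpace E] [BorelSpace E]
  {HM : Type} [TopologicalSpace HM] {I : ModelWithCorners ℝ E HM} [I.Boundaryless]
  {M : Type} [TopologicalSpace M] [ChartedSpace HM M] [IsManifold I ∞ M] [MeasurableSpace M]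
  [T2Space M] [BorelSpace M] [SecondCountableTopology M] {ι : Type} [Fintype ι]
  {V W : Type} [NormedAddCommGroup V] [InnerProductSpace ℝ V] [FiniteDimensional ℝ V]
  [NormedAddCommGroup W] [InnerProductSpace ℝ W] [FiniteDimensional ℝ W]
  {F : Fr I M ι} {C C' : ℕ → ℝ} {A : Op M ι V W}

theorem app_sub {u v : M → V} (hu : Sm I u) (hv : Sm I v) :
    A.app F (u - v) = A.app F u - A.app F v := funext fun x =>
  eq_sub_of_add_eq ((app_add (u := u - v) (hu.sub hv) hv x).symm.trans (by rw [sub_add_cancel]))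

/-- interpolation -/
theorem nrm_itp (hF : F.Tame C) {δ : ℝ} (hδ : 0 < δ) (k : ℕ) : ∃ K ≥ 0, ∀ u : M → V,
    Fl F.toPre u → F.nrm k u ≤ δ * F.nrm (k + 1) u + K * F.nrm 0 u := by
  refine ⟨|Mon62.KJ (Fintype.card ι * (1 + cK ι 0 * |C 0|)) δ k|, abs_nonneg _, fun u hu => ?_⟩
  obtain ⟨h, H⟩ := ex_is hF hu (k + 1)
  have := Mon62.interpH hF hδ k h
  rw [(H.incl k.le_succ).norm hu.sm, H.norm hu.sm, (H.incl (k + 1).zero_le).norm hu.sm] at this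
  exact this.trans (add_le_add le_rfl (mul_le_mul_of_nonneg_right (le_abs_self _) (nrm_nonneg _ _)))

/-- the weighted elliptic estimate -/
theorem nw_ell (hF : F.Tame C) (hA : A.Good F C') (hc : A.CliffL F) (D : ℕ → ℝ) (k : ℕ) :
    ∃ K ≥ 0, ∀ ψ d, Wd F.toPre ψ d D → ∀ u, Fl F.toPre u → (∀ x, A.p x (u x) = u x) →
      nw F.toPre (k + 1) ψ u ≤ K * (nw F.toPre k ψ (A.app F u) + nw F.toPre k ψ u) := by
  obtain ⟨K, hK⟩ := gard hF hA hc k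
  obtain ⟨S, hS⟩ := sy_ub hA D
  have c0 := cK_nonneg (ι := ι) k
  refine ⟨|K| * (1 + cK ι k * |S k|), by positivity, fun ψ d w u hu hp => ?_⟩
  have f := w.fl hu
  obtain ⟨y, hy⟩ := ex_isp hF f (fun x => by rw [map_smul, hp]) (k + 1)
  have h1 := (hK y).trans (mul_le_mul_of_nonneg_right (le_abs_self K) (by positivity))
  rw [hy.norm f.sm, (is_op hA hy f.sm).norm (sm_app hA f.sm), (hy.incl (k + 1).zero_le).norm f.sm,
    app_exp w.sm hu.sm] at h1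
  have h2 := nrm_add hF (w.fl (hu.opA hA)) (f.app ⟨_, hS ψ d w⟩) k
  have h3 := nrm_app (hS ψ d w).1 f.sm ((hS ψ d w).2 k) (f.fl k)
  have h4 := nrm_mono (F := F.toPre) k.zero_le fun x => exp (ψ x) • u x
  have h5 := mul_nonneg (mul_nonneg c0 (abs_nonneg (S k))) (nw_nonneg (F := F) (ψ := ψ) k (A.app F u))
  rw [mul_assoc]
  refine h1.trans (mul_le_mul_of_nonneg_left ?_ (abs_nonneg _))
  simp only [nw] at h5 ⊢
  linarith

theorem nw_qd (hF : F.Tame C) {q : M → V →L[ℝ] V →L[ℝ] W} (hq : F.Cb q) (D : ℕ → ℝ) {k : ℕ}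
    (hk : 7 ≤ k) : ∃ K ≥ 0, ∀ ψ d, Wd F.toPre ψ d D → ∀ u, Fl F.toPre u →
      Fl F.toPre (fun x => q x (u x) (u x)) ∧
        nw F.toPre k ψ (fun x => q x (u x) (u x)) ≤ K * nw F.toPre k ψ u ^ 2 := by
  let S : Set ((M → ℝ) × (M → V)) := {t | (∃ d, Wd F.toPre t.1 d D) ∧ Fl F.toPre t.2}
  have o : Cay24.Ok F.toPre S (·.1) := ⟨Cay24.exists_supF hF, D, fun t ht => ht.1⟩
  have h := Cay24.Ob.self (k := k) (ψ := (·.1)) (S := S) (f := (·.2)) fun t ht => ht.2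
  obtain ⟨K, k0, hK⟩ := Cay24.Ob.bil o (.id ℝ (V →L[ℝ] W)) (Lev.self hk)
    (Cay24.Ob.mul o (.id ℝ (V →L[ℝ] V →L[ℝ] W)) hq h) h
  refine ⟨√K, sqrt_nonneg _, fun ψ d w u hu => ?_⟩
  obtain ⟨h1, h2⟩ := hK (ψ, u) ⟨⟨d, w⟩, hu⟩
  refine ⟨h1, nrm_le_of_sq (by positivity) (h2.trans_eq ?_)⟩
  rw [mul_pow, sq_sqrt k0, Cay24.nw_sq, sq]

theorem nw_pair (U : Type) [NormedAddCommGroup U] [InnerProductSpace ℝ U] [FiniteDimensional ℝ U]
    (hF : F.Tame C) {T : M → V →L[ℝ] W} (hT : F.Cb T) (k : ℕ) : ∃ K ≥ 0,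
    ∀ {ψ d D} {s : M → W} {t : M → U} {u}, Wd F.toPre ψ d D → Fl F.toPre s → Fl F.toPre t → Fl F.toPre u →
      nw F.toPre k ψ ((fun x => i1 W U ((s + fun x => T x (u x)) x)) + fun x => i2 W U (t x)) +
        nw F.toPre k ψ u ≤ K * (nw F.toPre k ψ s + nw F.toPre k ψ t + nw F.toPre k ψ u) := by
  obtain ⟨S, s1, s2⟩ := id hT
  have c0 := cK_nonneg (ι := ι) k
  have p1 := mul_nonneg c0 (norm_nonneg (i1 W U))
  have p2 := mul_nonneg c0 (norm_nonneg (i2 W U))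
  have p3 := mul_nonneg c0 (abs_nonneg (S k))
  have p4 := mul_nonneg p1 p3
  refine ⟨_, add_nonneg (add_nonneg (add_nonneg p1 p2) p4) zero_le_one,
    fun {ψ d D s t u} w f1 f3 hu => ?_⟩
  have f2 := hu.app hT
  have q2 := nw_add hF w ((f1.add f2).clm (i1 W U)) (f3.clm (i2 W U)) k
  have q3 := (nw_clm w (i1 W U) (f1.add f2) k).trans (mul_le_mul_of_nonneg_left
    ((nw_add hF w f1 f2 k).trans (add_le_add le_rfl (nw_app w s1 (s2 k) hu))) p1)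
  have q4 := nw_clm w (i2 W U) f3 k
  have n1 := nw_nonneg (F := F) (ψ := ψ) k s
  have n2 := nw_nonneg (F := F) (ψ := ψ) k t
  have n3 := nw_nonneg (F := F) (ψ := ψ) k u
  nlinarith [mul_nonneg p1 n2, mul_nonneg p1 n3, mul_nonneg p2 n1, mul_nonneg p2 n3,
    mul_nonneg p4 n1, mul_nonneg p4 n2]

variable {lam : Type} [Fintype lam] {B : Base M ι lam} {G : Geo I M ι lam} {c : Cfg M ι lam 0}

variable (c) in
/-- scaling of the spinor -/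
def scl (l : ℝ) : CL (Cv c) (Cv c) := i1 _ _ ∘L fa + l • i2 _ _ ∘L fp

theorem sig_eq (l : ℝ) (u : M → Cv c) :
    sig B F c l u = ((dO B F c l).adj F).app F fun x => scl c l (u x) := by
  simp only [sig, scl, add_apply, smul_apply, ContinuousLinearMap.comp_apply, map_smul]

theorem scl_dg (l : ℝ) (ξ : M → c.m.A) (x : M) : scl c l (dg F c 1 ξ x) = dg F c l ξ x :=
  ext2 (fm_ext fun a => by simp [scl, fa_dg]) (by simp [scl, fp_dg])

theorem dg_neg (ξ : M → c.m.A) (x : M) : dg F c 1 (-ξ) x = -dg F c 1 ξ x :=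
  ext2 (fm_ext fun a => by
    rw [fa_dg, map_neg, PiLp.neg_apply, fa_dg]; exact congrArg _ (Wz78.nab_neg a ξ))
    (by rw [fp_dg, map_neg, fp_dg]; simp)

variable (b : Bs B G c) (l : ℝ)
include b

theorem fl_sig {u : M → Cv c} (hu : Fl G.F.toPre u) : Fl G.F.toPre (sig B G.F c l u) :=
  let ⟨_, _, h⟩ := b.good_row l
  sig_eq (F := G.F) (B := B) l u ▸ (hu.clm _).opA h

theorem nw_sig (D : ℕ → ℝ) (k : ℕ) : ∃ K ≥ 0, ∀ ψ d, Wd G.F.toPre ψ d D → ∀ u, Fl G.F.toPre u →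
    nw G.F.toPre k ψ (sig B G.F c l u) ≤ K * nw G.F.toPre (k + 1) ψ u := by
  obtain ⟨_, hF, h⟩ := b.good_row l
  obtain ⟨K, k0, hK⟩ := nw_opA hF D h k
  have c0 := cK_nonneg (ι := ι) (k + 1)
  refine ⟨K * (cK ι (k + 1) * ‖scl c l‖), by positivity, fun ψ d w u hu => ?_⟩
  rw [sig_eq, mul_assoc]
  exact (hK ψ d w _ (hu.clm _)).trans (mul_le_mul_of_nonneg_left (nw_clm w _ hu _) k0)

theorem sig_sub {u v : M → Cv c} (hu : Sm I u) (hv : Sm I v) :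
    sig B G.F c l (u - v) = sig B G.F c l u - sig B G.F c l v := by
  simp only [sig_eq, Pi.sub_apply, map_sub]
  exact app_sub (sm_clm _ hu) (sm_clm _ hv)

theorem full_eq : ∃ T : M → CL (Cv c) c.m.A, G.F.Cb T ∧ ∀ u, Sm I u →
    ((mbd B c.m).full G.F (base c.W c.Φ)).app G.F u =
      (fun x => i1 _ _ ((sig B G.F c l u + fun x => T x (u x)) x)) +
        fun x => i2 _ _ (lin B G.F c u x) := by
  obtain ⟨_, -, h⟩ := b.good_full
  obtain ⟨_, -, h1⟩ := b.good_row l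
  refine ⟨fun x => f2 _ _ ∘L ((mbd B c.m).full G.F (base c.W c.Φ)).B x -
      ((dO B G.F c l).adj G.F).B x ∘L scl c l,
    Cb_sub (Cb_comp (Cb_const _) ⟨_, h.B⟩) (Cb_comp ⟨_, h1.B⟩ (Cb_const _)), fun u hu => funext fun x => ?_⟩
  refine (op_pair _ _ _ u x).trans (congrArg (i1 _ _ · + _) ?_)
  have e1 : ∀ a, G.F.D a (fun x => scl c l (u x)) x = scl c l (G.F.D a u x) := fun a =>
    dv_clm _ (md hu x)
  have e2 : ∀ v, fa (scl c l v) = fa v := fun v => by simp [scl]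
  simp only [Pi.add_apply, sig_eq, Op.app, Pre.op, b.ok.row_σ, e1, e2, sub_apply,
    ContinuousLinearMap.comp_apply, Bd.full, Map77.pair, f2_pr2]
  abel

/-- the elliptic estimate for the gauge row and the linearisation -/
theorem nw_full (D : ℕ → ℝ) (k : ℕ) : ∃ K ≥ 0, ∀ ψ d, Wd G.F.toPre ψ d D → ∀ u, Fl G.F.toPre u →
    Tg B c u → nw G.F.toPre (k + 1) ψ u ≤ K * (nw G.F.toPre k ψ (sig B G.F c l u) +
      nw G.F.toPre k ψ (lin B G.F c u) + nw G.F.toPre k ψ u) := by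
  obtain ⟨_, hF, h⟩ := b.good_full
  obtain ⟨_, -, h2⟩ := b.good_lin
  obtain ⟨K, k0, hK⟩ := nw_ell hF h b.cliff_full D k
  obtain ⟨T, cT, e⟩ := full_eq b l
  obtain ⟨K', k1, hK'⟩ := nw_pair (Ev c) hF cT k
  refine ⟨_, mul_nonneg k0 k1, fun ψ d w u hu tu => ?_⟩
  have q1 := hK ψ d w u hu tu
  rw [e u hu.sm] at q1
  rw [mul_assoc]
  exact q1.trans (mul_le_mul_of_nonneg_left (hK' w (fl_sig b l hu) (hu.opA h2) hu) k0)

end gen

variable {E3 : Type} [NormedAddCommGroup E3] [NormedSpace ℝ E3] [FiniteDimensional ℝ E3]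
  [MeasurableSpace E3] [BorelSpace E3]
  {H3 : Type} [TopologicalSpace H3] {I3 : ModelWithCorners ℝ E3 H3} [I3.Boundaryless]
  {Y : Type} [TopologicalSpace Y] [ChartedSpace H3 Y] [IsManifold I3 ∞ Y] [T2Space Y]
  [MeasurableSpace Y] [BorelSpace Y] [SecondCountableTopology Y] [CompactSpace Y]
  {κ : Type} [Fintype κ] {lam : Type} [Fintype lam] {D : YD I3 Y κ lam} {β : YC Y κ lam}

theorem tame_cy (h : D.OK) : ∃ C, D.Z.Tame C := by
  rcases isEmpty_or_nonempty Y with _ | ⟨⟨y⟩⟩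
  · have e : ∀ f : Y × ℝ → ℝ, D.Z.CBs f 0 := fun f => ⟨fun x => isEmptyElim x, fun _ _ _ x => isEmptyElim x⟩
    exact ⟨0, fun _ _ => e _, fun _ _ _ => e _, fun _ => e _, fun f _ _ => by simp [integral_of_isEmpty],
      fun _ _ _ x => isEmptyElim x, fun _ _ => ⟨0, e _, HasCompactSupport.zero, fun x => isEmptyElim x,
        fun x => isEmptyElim x⟩⟩
  · have := dim_le h.B h.G (y, 0)
    rw [Module.finrank_prod, Module.finrank_self] at this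
    exact Cht98.tame_cyl D.F (by omega)

theorem cb_inv {N : Type} [NormedAddCommGroup N] [NormedSpace ℝ N] {f : Y → N}
    (h : Sm (IC I3) fun x : Y × ℝ => f x.1) : D.Z.Cb fun x => f x.1 :=
  Cht98.Cb_fst _ (Cb_of_compact (sm_slice_fst h 0))

theorem bs_cy (h : D.OK) (hβ : D.Adm β) : Bs D.B D.G (cy β) :=
  have ⟨_, hC⟩ := tame_cy h
  ⟨h.B, h.G, hβ.adm, ⟨_, hC⟩, ⟨fun a b => ⟨_, hC.P a b⟩, fun a b c d => cb_inv (h.B.so a b c d),
    cb_inv hβ.adm.ok.sp, fun a => cb_inv (hβ.adm.ok.sρ a), cb_inv hβ.adm.ok.sj⟩,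
    fun a => cb_inv (hβ.adm.conn.cc.sm a), cb_inv hβ.adm.sm⟩

theorem st_arith {K C a x v v0 v1 L R : ℝ} (hK : 0 ≤ K) (hC : 0 ≤ C) (h1 : 0 ≤ v1)
    (e : v1 ≤ K * (a + x + v)) (ha : a ≤ C * v) (hx : x ≤ R + C * v)
    (hv : v ≤ (2 * (K * (2 * C + 1)) + 1)⁻¹ * v1 + L * v0) :
    v1 ≤ 2 * K * R + 2 * (K * (2 * C + 1)) * L * v0 := by
  set Q := K * (2 * C + 1) with hQ
  have q0 : 0 ≤ Q := by positivity
  have q1 : Q * (2 * Q + 1)⁻¹ ≤ 1 / 2 := by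
    rw [← div_eq_mul_inv, div_le_iff₀ (by positivity)]; linarith
  have q2 : v1 ≤ K * R + Q * v :=
    e.trans ((mul_le_mul_of_nonneg_left (by linarith) hK).trans_eq (show K * (R + (2 * C + 1) * v) = _ by
      rw [hQ]; ring))
  nlinarith [mul_le_mul_of_nonneg_left hv q0, mul_le_mul_of_nonneg_right q1 h1]

theorem st_fin {K2 K3 K5 K7 Q A ρ x s u y : ℝ} (k2 : 0 ≤ K2) (k3 : 0 ≤ K3) (k5 : 0 ≤ K5) (k7 : 0 ≤ K7)
    (q0 : 0 ≤ Q) (a0 : 0 ≤ A) (hρ : 0 ≤ ρ) (hx : 0 ≤ x) (hs : 0 ≤ s) (hu : 0 ≤ u) (h1 : x ≤ A * u)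
    (h2 : y ≤ K3 * (x + u) * x + (2 * K5 * (s + K7 * u ^ 2 + K2 * u ^ 2) +
      Q * (s + K7 * u ^ 2 + K2 * u ^ 2 + ρ))) :
    y ≤ ((2 * K5 + Q) * (1 + K7 + K2) + K3 * (A + 1) * A) * (s + ρ + u ^ 2) := by
  have p1 : K3 * (x + u) * x ≤ K3 * (A + 1) * A * (s + ρ + u ^ 2) :=
    calc _ ≤ K3 * (A * u + u) * (A * u) := by gcongr
      _ = K3 * (A + 1) * A * u ^ 2 := by ring
      _ ≤ _ := by gcongr; linarith
  have p2 : s + K7 * u ^ 2 + K2 * u ^ 2 + ρ ≤ (1 + K7 + K2) * (s + ρ + u ^ 2) := by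
    nlinarith [mul_nonneg (add_nonneg k7 k2) (add_nonneg hs hρ), sq_nonneg u]
  nlinarith [mul_le_mul_of_nonneg_left p2 (show 0 ≤ 2 * K5 + Q by positivity), mul_nonneg k5 hρ]

theorem st' (cay : CayStmt (IC I3) (Y × ℝ) (Option κ) lam) (poi : PoiStmt I3 Y κ lam) :
    StStmt I3 Y κ lam := by
  intro D β τ ν l K Kt n hD hβ hI h0 H
  have b : Bs D.B ⟨D.Z, ca D.a⟩ (cy β) := bs_cy hD hβ
  obtain ⟨C0, hF, gA⟩ := b.good_dO l
  obtain ⟨_, -, gR⟩ := b.good_row l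
  obtain ⟨_, -, gL⟩ := b.good_lin
  obtain ⟨cp, hp⟩ := poi D β hD hβ hI l H.l0
  have mem : ∀ {ξ : Y × ℝ → (cy β).m.A}, (∀ x, (cy β).m.pg x (ξ x) = ξ x) → ∀ x, ξ x ∈ (cy β).m.gS x :=
    fun h x => h x ▸ Wz78.pg_mem x _
  obtain ⟨d₁, d1, hl⟩ := llw D.Z C0 C0 hF _ _ _ gA (b.cliff_dO l) cp fun ξ =>
    (hp ξ.1 ξ.2.1 ξ.2.2.1 (mem ξ.2.2.2)).trans_eq (congrArg (cp * D.Z.nrm 0 ·)
      (dO_app b.hB b.hG b.adm l ξ.2.1 (mem ξ.2.2.2)).1.symm)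
  obtain ⟨d₂, d2, hb⟩ := H.bd
  obtain ⟨Cp, p0, ε, hε, hk⟩ := H.pk
  refine ⟨ε, hε, fun G hG => ?_⟩
  obtain ⟨δ₀, d0, hk⟩ := hk G hG
  refine ⟨min δ₀ (min d₁ d₂), by positivity, fun δ hδ hδ' k k8 Dd => ?_⟩
  obtain ⟨hδ0, hδ1⟩ := le_min_iff.1 hδ'
  obtain ⟨hδ1, hδ2⟩ := le_min_iff.1 hδ1
  obtain ⟨K1, k1, hl⟩ := hl k Dd
  obtain ⟨K2, k2, r2, s2, hb⟩ := hb k k8 Dd
  obtain ⟨K3, k3, r3, s3, hc⟩ := cay D.B _ (cy β) b (k + 1) (by omega) Dd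
  obtain ⟨K4, k4, hs⟩ := nw_sig b l Dd k
  obtain ⟨K5, k5, hf⟩ := nw_full b l Dd k
  obtain ⟨K6, k6, hi⟩ := nrm_itp (V := Cv (cy β)) hF (δ := (2 * (K5 * (2 * K2 + 1)) + 1)⁻¹)
    (by positivity) k
  obtain ⟨K7, k7, hq⟩ := nw_qd hF b.cb_qd Dd (k := k) (by omega)
  set Q := 2 * (K5 * (2 * K2 + 1)) * K6 * (Cp / δ) with hQ
  set A := K1 * (K4 + K2) with hA
  have q0 : 0 ≤ Q := by positivity
  have a0 : 0 ≤ A := by positivity
  refine ⟨(2 * K5 + Q) * (1 + K7 + K2) + K3 * (A + 1) * A, by positivity, min r2 (r3 / (A + 1)),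
    by positivity, fun ψ ς k' pf w u hu hr ρ hρ hrow => ?_⟩
  obtain ⟨hr2, hr3⟩ := le_min_iff.1 hr
  obtain ⟨fK, fT, mT, fe⟩ := H.fl u hu
  obtain ⟨b1, b2, b3⟩ := hb ψ (w.mono hδ2) u hu
  have fs := fl_sig b l hu.fl
  obtain ⟨ξ, fξ, pξ, eξ, hξ⟩ := hl _ (fs.add fT) fun x => (map_add _ _ _).trans
    (congrArg₂ (· + ·) (q_app gR _ x) (Wz78.pg_of_mem (mT x)))
  have mξ := mem pξ
  have m1 : nw D.Z.toPre k (fun x => ψ x.2) u ≤ _ := nw_mono k.le_succ u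
  have n0 : 0 ≤ nw D.Z.toPre k (fun x => ψ x.2) u := nw_nonneg k u
  have nξ : nw D.Z.toPre (k + 2) (fun x => ψ x.2) ξ ≤ A * nw D.Z.toPre (k + 1) (fun x => ψ x.2) u := by
    rw [hA, mul_assoc, add_mul]
    exact (hξ _ (w.mono hδ1)).trans (mul_le_mul_of_nonneg_left ((nw_add hF w fs fT k).trans
      (add_le_add (hs _ _ w u hu.fl) (b2.trans (mul_le_mul_of_nonneg_left m1 k2)))) k1)
  obtain ⟨_, -, g1⟩ := b.good_dO 1
  obtain ⟨e1, t1⟩ := dO_app b.hB b.hG b.adm 1 fξ.sm mξ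
  have fd : Fl D.Z.toPre (dg D.Z (cy β) 1 ξ) := e1 ▸ fξ.opA g1
  have vd : Vr D β (dg D.Z (cy β) 1 ξ) := ⟨fd, t1⟩
  have vV : Vr D β (u - dg D.Z (cy β) 1 ξ) := ⟨hu.fl.sub fd, hu.tg.sub t1⟩
  obtain ⟨g2, g3⟩ := H.gau ξ fξ mξ
  obtain ⟨u1, u2⟩ := H.sub _ _ hu vd
  have e2 : sig D.B D.Z (cy β) l (dg D.Z (cy β) 1 ξ) = sig D.B D.Z (cy β) l u + Kt u := by
    rw [sig_eq, funext (scl_dg l ξ), ← eξ]
    exact congrArg _ (dO_app b.hB b.hG b.adm l fξ.sm mξ).1.symm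
  have e3 : sig D.B D.Z (cy β) l (u - dg D.Z (cy β) 1 ξ) = -Kt (u - dg D.Z (cy β) 1 ξ) := by
    rw [u2, g3, sub_zero]
    exact (sig_sub b l hu.fl.sm fd.sm).trans ((congrArg _ e2).trans (sub_add_cancel_left _ _))
  obtain ⟨fq, nq⟩ := hq _ _ w u hu.fl
  have fL : Fl D.Z.toPre (lin D.B D.Z (cy β) u) := hu.fl.opA gL
  have e4 : sz D β τ u = lin D.B D.Z (cy β) u + (fun x => qd D.B (cy β) x (u x) (u x)) -
      (te τ (cy β) u - te τ (cy β) 0) := funext fun x =>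
    (se_eq b.hB b.hG b.adm τ hu.fl.sm hu.tg x).trans (by
      rw [show se D.B ⟨D.Z, ca D.a⟩ τ (cy β) 0 x = 0 from congrFun h0 x, zero_add]; rfl)
  have fz : Fl D.Z.toPre (sz D β τ u) := e4 ▸ (fL.add fq).sub fe
  have e5 : lin D.B D.Z (cy β) (u - dg D.Z (cy β) 1 ξ) - K (u - dg D.Z (cy β) 1 ξ) =
      sz D β τ u - (fun x => qd D.B (cy β) x (u x) (u x)) + (te τ (cy β) u - te τ (cy β) 0 - K u) := by
    rw [u1, lin, app_sub hu.fl.sm fd.sm, ← lin, ← lin, g2, e4]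
    abel
  have rw : ∀ t, row D n (u - dg D.Z (cy β) 1 ξ) t = row D n u t := fun t => by
    have c : ∀ {v : Cz β}, Sm (IC I3) v → Integrable (fun y => ⟪n y, v (y, t)⟫_ℝ) D.F.μ := fun hv =>
      int_c D.F.toPre (H.rw.sm.continuous.inner (sm_slice_fst hv t).continuous)
    have := H.rw.g ξ fξ.sm mξ t
    simp only [row, Pi.sub_apply, inner_sub_right] at this ⊢
    rw [integral_sub (c hu.fl.sm) (c fd.sm), this, sub_zero]
  have e6 : u - dg D.Z (cy β) 1 ξ = fun x => u x + dg D.Z (cy β) 1 (-ξ) x := funext fun x => by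
    rw [dg_neg, ← sub_eq_add_neg]; rfl
  obtain ⟨g, u', fu', tu', eq, nu'⟩ := hc _ _ u (-ξ) w hu.fl hu.tg fξ.neg (fun x => neg_mem (mξ x)) (by
    rw [le_div_iff₀ (by positivity)] at hr3
    refine (nw_neg hF w fξ _).trans_le (nξ.trans ?_)
    linarith)
  refine ⟨fz, g, u', ⟨fu', tu'⟩, eq, ?_⟩
  have e7 : (fun x => u' x - u x - dg D.Z (cy β) 1 (-ξ) x) = u' - (u - dg D.Z (cy β) 1 ξ) :=
    funext fun x => by rw [e6, sub_sub]; rfl
  replace nu' : nw D.Z.toPre (k + 1) (fun x => ψ x.2) (u' - (u - dg D.Z (cy β) 1 ξ)) ≤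
      K3 * (nw D.Z.toPre (k + 2) (fun x => ψ x.2) ξ + nw D.Z.toPre (k + 1) (fun x => ψ x.2) u) *
        nw D.Z.toPre (k + 2) (fun x => ψ x.2) ξ := by
    rw [← e7, ← nw_neg hF w fξ]; exact nu'
  generalize u - dg D.Z (cy β) 1 ξ = V at vV e3 e5 rw nu'
  obtain ⟨fK', fT', -, -⟩ := H.fl V vV
  obtain ⟨c1, c2, -⟩ := hb ψ (w.mono hδ2) V vV
  have fL' : Fl D.Z.toPre (lin D.B D.Z (cy β) V) := vV.fl.opA gL
  have a1 := (nw_add hF w (fz.sub fq) (fe.sub fK) k).trans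
    (add_le_add ((nw_sub hF w fz fq k).trans (add_le_add le_rfl (nq.trans
      (mul_le_mul_of_nonneg_left (pow_le_pow_left₀ n0 m1 2) k7)))) (b3 hr2))
  rw [← e5] at a1
  have a2 := hk δ hδ hδ0 ψ ς k' pf V vV ρ hρ (hrow V vV rw)
  have z : nw D.Z.toPre 0 (fun x => ψ x.2) (0 : Y × ℝ → (cy β).m.A) = 0 := by
    simp only [nw, Pi.zero_apply, smul_zero]; exact nrm_zero hF 0
  rw [e3, neg_add_cancel, z, add_zero, ← le_div_iff₀' hδ, mul_div_right_comm] at a2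
  have a3 := a2.trans (mul_le_mul_of_nonneg_left (add_le_add ((nw_mono k.zero_le _).trans a1) le_rfl)
    (by positivity))
  have a4 := nw_add hF w (fL'.sub fK') fK' k
  rw [sub_add_cancel] at a4
  have a5 := st_arith k5 k2 (nw_nonneg _ _) (hf _ _ w V vV.fl vV.tg)
    ((congrArg _ e3).trans_le ((nw_neg hF w fT' k).trans_le c2))
    (a4.trans (add_le_add a1 c1)) (hi _ (w.fl vV.fl))
  have a6 := nw_add hF w (fu'.sub vV.fl) vV.fl (k + 1)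
  rw [sub_add_cancel] at a6
  have a7 := (mul_le_mul_of_nonneg_left a3
    (show 0 ≤ 2 * (K5 * (2 * K2 + 1)) * K6 by positivity)).trans_eq (mul_assoc _ _ _).symm
  exact st_fin k2 k3 k5 k7 q0 a0 hρ (nw_nonneg _ _) (nw_nonneg _ _) (nw_nonneg _ _) nξ
    (a6.trans (add_le_add nu' (a5.trans (add_le_add le_rfl a7))))

/-- **LEAF ST** -/
theorem st : StStmt I3 Y κ lam := st' Cay24.cay poi

end Crest.Agent.X212.Hm83
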