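import Crest.Agent.X212.Dec35.Lv
import Crest.Agent.X212.Cay24.Alg
import Crest.Agent.X212.Loc66.Paste
import Crest.Agent.X212.Pj41.Two

/-!
# Row 212, DEC / GA (helper83): gauge transformations between small variations are multipliers
-/

set_option autoImplicit false
set_option linter.unusedSectionVars false
noncomputable section
open scoped Manifold ContDiff Topology InnerProductSpace
open MeasureTheory Set Function Filter Real

namespace Crest.Agent.X212.Hm83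
open An Map77 Sob92 Dec35
open Tmp64 (Eq0)
open Eqv71 (cj)
open Wz78 (adcL)

section alg
variable {α Y Z : Type} [Fintype α] [NormedAddCommGroup Y] [InnerProductSpace ℝ Y]
  [FiniteDimensional ℝ Y] [NormedAddCommGroup Z] [InnerProductSpace ℝ Z] [FiniteDimensional ℝ Z]

variable (α Y) in
/-- the action on tensors -/
def fmL : CL Y Y →L[ℝ] CL (Fm α Y) (Fm α Y) := LinearMap.toContinuousLinearMap
  { toFun := fun S => tp fun a => S ∘L pj _ a
    map_add' := fun _ _ => ContinuousLinearMap.ext fun _ => fm_ext fun _ => rfl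
    map_smul' := fun _ _ => ContinuousLinearMap.ext fun _ => fm_ext fun _ => rfl }

variable (Y Z) in
/-- the action on sums -/
def smL : (CL Y Y × CL Z Z) →L[ℝ] CL (P2 Y Z) (P2 Y Z) := LinearMap.toContinuousLinearMap
  { toFun := fun s => sm2 s.1 s.2
    map_add' := fun _ _ => ContinuousLinearMap.ext fun _ => ext2 (by simp) (by simp)
    map_smul' := fun _ _ => ContinuousLinearMap.ext fun _ => ext2 (by simp) (by simp) }

theorem fmL_mul (S T : CL Y Y) : fmL α Y (S * T) = fmL α Y S * fmL α Y T :=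
  ContinuousLinearMap.ext fun _ => fm_ext fun _ => rfl

theorem smL_mul (s t : CL Y Y × CL Z Z) : smL Y Z (s * t) = smL Y Z s ∘L smL Y Z t :=
  ContinuousLinearMap.ext fun _ => ext2 (by simp [smL]) (by simp [smL])

theorem le_of_one {S : CL Y Y} (h : ‖S‖ ≤ 1) (y : Y) : ‖S y‖ ≤ ‖y‖ :=
  (S.le_opNorm y).trans (mul_le_of_le_one_left (norm_nonneg _) h)

theorem fmL_le {S : CL Y Y} (h : ‖S‖ ≤ 1) : ‖fmL α Y S‖ ≤ 1 :=
  ContinuousLinearMap.opNorm_le_bound _ zero_le_one fun v => by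
    rw [one_mul, PiLp.norm_eq_of_L2, PiLp.norm_eq_of_L2]
    gcongr with a
    exact le_of_one h _

theorem smL_le {S : CL Y Y} {T : CL Z Z} (h : ‖S‖ ≤ 1) (h' : ‖T‖ ≤ 1) : ‖smL Y Z (S, T)‖ ≤ 1 :=
  ContinuousLinearMap.opNorm_le_bound _ zero_le_one fun v => by
    rw [one_mul, WithLp.prod_norm_eq_of_L2, WithLp.prod_norm_eq_of_L2]
    gcongr
    · exact (congrArg norm (f2_sm2 S T v)).trans_le (le_of_one h _)
    · exact (congrArg norm (s2_sm2 S T v)).trans_le (le_of_one h' _)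

variable (α Y Z) in
/-- the action on variations -/
def rC : (CL Y Y × CL Z Z) →L[ℝ] CL (P2 (Fm α Y) Z) (P2 (Fm α Y) Z) :=
  smL _ _ ∘L (fmL α Y).prodMap (.id ℝ _)

variable (α Y Z) in
/-- the action on the values of the equations -/
def rE : (CL Y Y × CL Z Z) →L[ℝ] CL (P2 Z (Fm α Y)) (P2 Z (Fm α Y)) :=
  smL _ _ ∘L (ContinuousLinearMap.snd ℝ _ _).prod (fmL α Y ∘L .fst ℝ _ _)

theorem rC_apply (s : CL Y Y × CL Z Z) : rC α Y Z s = smL _ _ (fmL α Y s.1, s.2) := rfl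

theorem rE_apply (s : CL Y Y × CL Z Z) : rE α Y Z s = smL _ _ (s.2, fmL α Y s.1) := rfl

theorem rC_mul (s t : CL Y Y × CL Z Z) : rC α Y Z (s * t) = rC α Y Z s ∘L rC α Y Z t := by
  simp only [rC_apply, ← smL_mul, Prod.fst_mul, Prod.snd_mul, fmL_mul, Prod.mk_mul_mk]

theorem rE_mul (s t : CL Y Y × CL Z Z) : rE α Y Z (s * t) = rE α Y Z s ∘L rE α Y Z t := by
  simp only [rE_apply, ← smL_mul, Prod.fst_mul, Prod.snd_mul, fmL_mul, Prod.mk_mul_mk]

theorem rC_le {S : CL Y Y} {T : CL Z Z} (h : ‖S‖ ≤ 1) (h' : ‖T‖ ≤ 1) : ‖rC α Y Z (S, T)‖ ≤ 1 :=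
  smL_le (fmL_le h) h'

theorem rE_le {S : CL Y Y} {T : CL Z Z} (h : ‖S‖ ≤ 1) (h' : ‖T‖ ≤ 1) : ‖rE α Y Z (S, T)‖ ≤ 1 :=
  smL_le h' (fmL_le h)

theorem norm_cj {κ : Type} [Fintype κ] [DecidableEq κ] {u p q : En κ} (h : Pj41.CIso u p q) :
    ‖cj u‖ ≤ 1 := by
  have e : Pj41.ad (cj u) = cj (trn u) := Pj41.ad_eq fun w v => by
    rw [Eqv71.inner_cj, Eqv71.trn_trn]
  refine Bki64.norm_iso (p := cj p) (q := cj q) ⟨?_, ?_, ?_⟩ <;> ext1 ξ
  · rw [e, ContinuousLinearMap.comp_apply, Eqv71.cj_cj, ← Pj41.ad_trn, h.src]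
  · rw [e, ContinuousLinearMap.comp_apply, Eqv71.cj_cj, ← Pj41.ad_trn, h.tgt]
  · rw [ContinuousLinearMap.comp_apply, Eqv71.cj_cj, h.idem]

end alg

variable {E : Type} [NormedAddCommGroup E] [NormedSpace ℝ E] [FiniteDimensional ℝ E]
  [MeasurableSpace E] [BorelSpace E]
  {HM : Type} [TopologicalSpace HM] {I : ModelWithCorners ℝ E HM} [I.Boundaryless]
  {M : Type} [TopologicalSpace M] [ChartedSpace HM M] [IsManifold I ∞ M] [MeasurableSpace M]
  [T2Space M] [BorelSpace M] [SecondCountableTopology M]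
  {ι : Type} [Fintype ι] {lam : Type} [Fintype lam]
  {B : Base M ι lam} {G : Geo I M ι lam} {c : Cfg M ι lam 0}

theorem ga_rep (b : Bs B G c) {k : ℕ} (hk : 7 ≤ k) (C0 : ℝ) {X : Type} [NormedAddCommGroup X]
    [InnerProductSpace ℝ X] [FiniteDimensional ℝ X]
    (Φ : (CL c.m.A c.m.A × En (Fin c.m.N)) →L[ℝ] X →L[ℝ] X) (mul : ∀ s t, Φ (s * t) = Φ s ∘L Φ t)
    (nm : ∀ s t, ‖s‖ ≤ 1 → ‖t‖ ≤ 1 → ‖Φ (s, t)‖ ≤ 1) :
    ∃ K ≥ 0, ∀ (a u : M → Cv c) (h : M → En (Fin c.m.N)), G.F.Cb a → Tg B c a → G.F.CB k a C0 →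
      Fl G.F.toPre u → Tg B c u → G.F.nrm k u ≤ 1 → Eq0 G.F (cf c a) (cf c u) univ h →
      G.F.Cb (fun x => Φ (cj (h x), h x)) ∧ ∀ j ≤ k + 1, ∀ w : M → X, Fl G.F.toPre w →
        G.F.nrm j (fun x => Φ (cj (h x), h x) (w x)) ≤ K * G.F.nrm j w := by
  obtain ⟨C, hC⟩ := b.tame
  choose D hD using b.cW
  let L : En (Fin c.m.N) →L[ℝ] CL c.m.A c.m.A × En (Fin c.m.N) := adcL.prod (.id ℝ _)
  have p : ∀ a : ι, 0 ≤ ‖(oa a : CL (Cv c) _)‖ * |C0| := fun a => by positivity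
  obtain ⟨K, k0, hK⟩ := hm G.F C hC (Cv c) X X (fun a => (Φ ∘L L) ∘L oa a) k hk
    (‖Φ ∘L L‖ * ∑ a, (|D a k| + ‖(oa a : CL (Cv c) _)‖ * |C0|))
  refine ⟨K, k0, fun a u h ca ta ba fu tu nu H => ?_⟩
  have sa := ca.choose_spec.1
  have sh : ∀ x, Wz78.SA I h x := fun x => H.iso.su x trivial
  have le : ∀ e : ι, |D e k| + ‖(oa e : CL (Cv c) _)‖ * |C0| ≤
      ∑ a, (|D a k| + ‖(oa a : CL (Cv c) _)‖ * |C0|) := fun e =>
    Finset.single_le_sum (f := fun a => |D a k| + ‖(oa a : CL (Cv c) _)‖ * |C0|)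
      (fun a _ => add_nonneg (abs_nonneg _) (p a)) (Finset.mem_univ e)
  have sk : ∀ {v : M → Cv c}, Tg B c v → ∀ x e, Skw (c.W e x + oa e (v x)) := fun tv x e v w => by
    rw [add_apply, add_apply, inner_add_left, inner_add_right, b.adm.conn.sk e x,
      oa_apply, Wz78.g_skw ((Cay24.tg_iff.1 tv).1 x e), neg_add]
  refine hK _ (fun e x => (Φ ∘L L) (c.W e x + oa e (a x))) (fun e x => (Φ ∘L L) (c.W e x)) u
    (fun x => Wz78.SA.clm Φ ((Eqv71.sa_cj (sh x)).prodMk_space (sh x)))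
    (fun x => nm _ _ (norm_cj (H.iso.iso x trivial)) (Bki64.norm_iso (H.iso.iso x trivial)))
    (fun e => ⟨Cb_clm _ (Cb_add ⟨_, hD e⟩ (Cb_clm _ ca)), ?_⟩) (fun e => ⟨Cb_clm _ ⟨_, hD e⟩, ?_⟩)
    fu nu fun e x => ?_
  · have s2 : Sm I fun x => oa e (a x) := (oa e).contMDiff.comp sa
    exact CB_mono (CB_clm _ ((hD e).1.add s2) (CB_add (hD e).1 s2 (CB_abs ((hD e).2 k))
      (CB_clm _ sa (CB_abs ba)))) (mul_le_mul_of_nonneg_left (le e) (norm_nonneg _))
  · exact CB_mono (CB_clm _ (hD e).1 (CB_abs ((hD e).2 k)))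
      (mul_le_mul_of_nonneg_left ((le_add_of_nonneg_right (p e)).trans (le e)) (norm_nonneg _))
  · have i1 : Eqv71.Itw I G.F.e (fun e x => c.W e x + oa e (a x)) (fun e x => c.W e x + oa e (u x))
        h x := H.itw trivial
    have i2 := i1.cj (sh x) (sk ta x) (sk tu x) e
    have s := (Eqv71.sa_cj (sh x)).prodMk_space (sh x)
    have d1 : dv I (G.F.e e) (fun x => cj (h x)) x = (dv I (G.F.e e) (fun x => (cj (h x), h x)) x).1 :=
      dv_clm (.fst ℝ (CL c.m.A c.m.A) (En (Fin c.m.N))) (Wz78.SA.md s)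
    have d2 : dv I (G.F.e e) h x = (dv I (G.F.e e) (fun x => (cj (h x), h x)) x).2 :=
      dv_clm (.snd ℝ (CL c.m.A c.m.A) (En (Fin c.m.N))) (Wz78.SA.md s)
    have d : dv I (G.F.e e) (fun x => (cj (h x), h x)) x =
        (cj (h x), h x) * L (c.W e x + oa e (a x)) - L (c.W e x + oa e (u x)) * (cj (h x), h x) :=
      Prod.ext (d1.symm.trans (eq_sub_of_add_eq i2)) (d2.symm.trans (eq_sub_of_add_eq (i1 e)))
    rw [Pre.D_def, dv_clm Φ (Wz78.SA.md s), d, map_sub, mul, mul]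
    simp only [ContinuousLinearMap.comp_apply, map_add]

theorem ga_tr (b : Bs B G c) {a u w : M → Cv c} {h : M → En (Fin c.m.N)} (tw : Tg B c w)
    (H : Eq0 G.F (cf c a) (cf c u) univ h) : Tg B c (fun x => act (h x) (w x)) ∧
      Eq0 G.F (cf c (a + w)) (cf c (u + fun x => act (h x) (w x))) univ h := by
  obtain ⟨t1, t2, t3⟩ := Cay24.tg_iff.1 tw
  have o := Pj41.okOn_univ.2 b.adm.ok
  have i : Pj41.Iso0 I c.m c.m univ h := H.iso
  have e1 : ∀ x e, fa (act (h x) (w x)) e = cj (h x) (fa (w x) e) := fun x e => by simp [act]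
  have e2 : ∀ x, fp (act (ι := ι) (h x) (w x)) = h x (fp (w x)) := fun x => by simp [act]
  refine ⟨Cay24.tg_iff.2 ⟨fun x e => ?_, fun x e => ?_, fun x => ?_⟩, H.iso, fun x _ e => ?_,
    fun x _ => ?_, rfl⟩
  · rw [e1]; exact Loc66.cj_mem i o o trivial (t1 x e)
  · simp only [e1, ← map_smul, ← map_sum, t2]
  · rw [e2, i.pp trivial, t3]
  · have p : G.F.D e h x + (c.W e x + oa e (u x)) * h x - h x * (c.W e x + oa e (a x)) = 0 :=
      H.par x trivial e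
    have q : oa e (act (h x) (w x)) * h x = h x * oa e (w x) := by
      have q1 : trn (h x) ∘L h x = c.m.p x := Pj41.ad_trn (h x) ▸ (i.iso x trivial).src
      have q2 : opL (fa (w x) e) ∘L c.m.p x = opL (fa (w x) e) := Wz78.g_p' b.adm.ok (t1 x e)
      rw [oa_apply, e1, Eqv71.opL_cj, oa_apply, ContinuousLinearMap.mul_def,
        ContinuousLinearMap.mul_def, ContinuousLinearMap.comp_assoc, ContinuousLinearMap.comp_assoc,
        q1, q2]
    change G.F.D e h x + (c.W e x + oa e (u x + act (h x) (w x))) * h x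
      - h x * (c.W e x + oa e (a x + w x)) = 0
    rw [← p, map_add, map_add, ← add_assoc, ← add_assoc, add_mul, mul_add, q]
    abel
  · have p : c.Φ x + fp (u x) = h x (c.Φ x + fp (a x)) := H.Φ x trivial
    change c.Φ x + fp (u x + act (h x) (w x)) = h x (c.Φ x + fp (a x + w x))
    rw [map_add, map_add fp, ← add_assoc, ← add_assoc, p, e2, ← map_add]

/-- **LEAF GA** -/
theorem ga : GaStmt I M ι lam := by
  intro B G c b k hk C0
  obtain ⟨K, k0, hK⟩ := ga_rep b hk C0 (rC ι c.m.A c.m.V) rC_mul fun _ _ => rC_le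
  obtain ⟨K', k0', hK'⟩ := ga_rep b hk C0 (rE (ι × ι) c.m.A c.m.V) rE_mul fun _ _ => rE_le
  refine ⟨K + K', by positivity, fun a u h ca ta ba fu tu nu H => ?_⟩
  obtain ⟨h1, h2⟩ := hK a u h ca ta ba fu tu nu H
  obtain ⟨h3, h4⟩ := hK' a u h ca ta ba fu tu nu H
  refine ⟨h1, h3, fun j hj w hw => (h2 j hj w hw).trans ?_, fun j hj w hw => (h4 j hj w hw).trans ?_,
    fun w _ tw => ga_tr b tw H⟩
  · exact mul_le_mul_of_nonneg_right (by linarith) (nrm_nonneg _ _)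
  · exact mul_le_mul_of_nonneg_right (by linarith) (nrm_nonneg _ _)

end Crest.Agent.X212.Hm83
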