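import Crest.Agent.X212.Hm83.Poi
import Crest.Agent.X212.Abel74.Gap
import Crest.Agent.X212.Grp76.Md
import Crest.Agent.X212.Std94.Loc

/-!
# Row 212, DEC-PH (helper83): the row measures the phase
-/

set_option autoImplicit false
set_option linter.unusedSectionVars false
noncomputable section
open scoped Manifold ContDiff Topology InnerProductSpace
open MeasureTheory Set Function Filter Real

namespace Crest.Agent.X212.Hm83
open An An.Pre Sob92 Dec35 Map77 Nd18 Cyf70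
open Wz78 (nab Skew opL_hsL hsL_opL norm_opL_apply)
open Tmp64 (Eq0)

theorem abs_sin_sub (θ : ℝ) : |sin θ - θ| ≤ 2 * θ ^ 2 := by
  have h1 := abs_sub_sin_le θ
  have h2 := (abs_sub θ (sin θ)).trans (add_le_add le_rfl abs_sin_le_abs)
  have h3 := abs_nonneg θ
  rw [abs_sub_comm, ← sq_abs]
  rcases le_total |θ| 1 with h | h <;> nlinarith [mul_nonneg h3 h3]

theorem nrm_opL {K : Type} [Fintype K] [DecidableEq K] (ξ : An.HS K) : ‖opL ξ‖ ≤ ‖ξ‖ :=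
  ContinuousLinearMap.opNorm_le_bound _ (norm_nonneg _) (norm_opL_apply ξ)

theorem alg1 {X Z A P t S Q : ℝ} (e1 : X ≤ S * A ^ 2) (e3 : Z ≤ (P + t * Q) ^ 2) (hS : 0 ≤ S) :
    X + Z ≤ (S + 2 + 2 * Q ^ 2) * (A ^ 2 + P ^ 2 + t ^ 2) := by
  nlinarith [sq_nonneg (P - t * Q), mul_nonneg hS (sq_nonneg P), mul_nonneg hS (sq_nonneg t), sq_nonneg A,
    sq_nonneg t, sq_nonneg (Q * A), sq_nonneg (Q * P)]

theorem alg2 {X Z k b t R : ℝ} (e2 : X ≤ (R + R * R * R) * (k * b)) (e3 : Z ≤ t ^ 2 * (R * R) +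
    2 * t ^ 2 * (R * (R * R)) + t * (R * (k * R)) + k ^ 2 * R) (R0 : 0 ≤ R) :
    X + Z ≤ (R + R * R * R + (R * R + 2 * (R * (R * R))) + R * R + R) * (b ^ 2 + k ^ 2 + t ^ 2) := by
  have a1 : k * b ≤ b ^ 2 + k ^ 2 + t ^ 2 := by nlinarith [sq_nonneg (k - b), sq_nonneg k, sq_nonneg b, sq_nonneg t]
  have a2 : t * k ≤ b ^ 2 + k ^ 2 + t ^ 2 := by nlinarith [sq_nonneg (k - t), sq_nonneg k, sq_nonneg b, sq_nonneg t]
  have a3 : t ^ 2 ≤ b ^ 2 + k ^ 2 + t ^ 2 := by nlinarith [sq_nonneg k, sq_nonneg b]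
  have a4 : k ^ 2 ≤ b ^ 2 + k ^ 2 + t ^ 2 := by nlinarith [sq_nonneg t, sq_nonneg b]
  nlinarith [mul_le_mul_of_nonneg_left a1 (by positivity : 0 ≤ R + R * R * R),
    mul_le_mul_of_nonneg_left a2 (by positivity : 0 ≤ R * R), mul_le_mul_of_nonneg_left a4 R0,
    mul_le_mul_of_nonneg_left a3 (by positivity : 0 ≤ R * R + 2 * (R * (R * R)))]

section gen
variable {E : Type} [NormedAddCommGroup E] [NormedSpace ℝ E] [FiniteDimensional ℝ E]
  [MeasurableSpace E] [BorelSpace E]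
  {HM : Type} [TopologicalSpace HM] {I : ModelWithCorners ℝ E HM} [I.Boundaryless]
  {M : Type} [TopologicalSpace M] [ChartedSpace HM M] [IsManifold I ∞ M] [MeasurableSpace M]
  [T2Space M] [BorelSpace M] [SecondCountableTopology M] {ι : Type} [Fintype ι]
  {lam : Type} [Fintype lam] {B : Base M ι lam} {G : Geo I M ι lam} {c : Cfg M ι lam 0}
  {a b : M → Cv c} {h : M → En (Fin c.m.N)} {x : M} {θ R : ℝ}

theorem par_const {V : Type} [NormedAddCommGroup V] [InnerProductSpace ℝ V] [PreconnectedSpace M]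
    {F : Fr I M ι} {A : ι → M → V →L[ℝ] V} (hs : ∀ a x, Skew (A a x)) {k : M → V} (hk : Sm I k)
    (h1 : ∀ a x, nab I F.e A a k x = 0) : ∃ r, ∀ x, ⟪k x, k x⟫_ℝ = r := by
  refine (Abel74.const_of_D (F := F) isOpen_univ isPreconnected_univ (fun x _ => Ell97.sm_inner hk hk x)
    fun a x _ => ?_).imp fun r hr x => hr x trivial
  rw [Ell97.D_inner F.toPre a hk hk, show F.D a k x = _ from eq_neg_of_add_eq_zero_left (h1 a x),
    real_inner_comm _ (k x), inner_neg_left, (hs a x).self]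
  simp

variable (c h) in
/-- the distance from the identity -/
def kp (x : M) : c.m.A := hsL (h x - c.m.p x)

variable (c h) in
/-- the part in the Lie algebra -/
def xi (x : M) : c.m.A := kp c h x + ((1 / 32 : ℝ) * ⟪kp c h x, kp c h x⟫_ℝ) • hsL (c.m.p x)

variable (hB : B.OK I) (hc : c.Adm B G)
include hc

theorem p_Φ (x : M) : c.m.p x (c.Φ x) = c.Φ x := by
  rw [← hc.pos x, ← mul_apply_eq_comp, Wz78.p_pp hc.ok]

theorem kp_Φ (x : M) : opL (kp c h x) (c.Φ x) = h x (c.Φ x) - c.Φ x := by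
  rw [kp, opL_hsL, sub_apply, p_Φ hc]

include hB in
theorem ker_pt {k : c.m.A} (h1 : Grp76.ph c.m x k = k) (h2 : opL k (c.Φ x) = 0) (h3 : c.Φ x ≠ 0) :
    ⟪k, k⟫_ℝ = 0 := by
  have := congrArg (· (c.Φ x)) (Std94.itx_norm hB (Std94.pmx hc.ok x) (Std94.pmx hc.ok x)
    ((Grp76.ph_iff hB hc.ok k).1 h1)).1
  simp only [ContinuousLinearMap.comp_apply, h2, map_zero, smul_apply, p_Φ hc, ← Std94.inner_hs'] at this
  linarith [(smul_eq_zero.1 this.symm).resolve_right h3]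

include hB in
theorem sm_ph : Sm I (Grp76.ph c.m) :=
  (Std94.sm_pg hB hc.ok).add ((contMDiff_const (I' := 𝓘(ℝ, ℝ)) (c := (1 / 16 : ℝ))).smul (smooth_bil
    (ContinuousLinearMap.smulRightL ℝ c.m.A c.m.A) ((innerSL ℝ).contMDiff.comp (hsL.contMDiff.comp hc.ok.sp))
    (hsL.contMDiff.comp hc.ok.sp)))

variable (hh : Eq0 G.F (cf c a) (cf c b) univ h)
include hh

theorem sm_kp : Sm I (kp c h) := hsL.contMDiff.comp (ContMDiff.sub (fun x => hh.iso.su x trivial) hc.ok.sp)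

theorem sm_xi : Sm I (xi c h) :=
  (sm_kp hc hh).add ((contMDiff_const.mul (Ell97.sm_inner (sm_kp hc hh) (sm_kp hc hh))).smul
    (hsL.contMDiff.comp hc.ok.sp))

theorem phi_eq (ha : a x = rot c (fun _ => θ) 0 x) :
    fp (b x) = cos θ • h x (c.Φ x) + sin θ • c.m.J (h x (c.Φ x)) - c.Φ x := by
  have h1 : c.Φ x + fp (b x) = h x (c.Φ x + fp (a x)) := hh.Φ x trivial
  have h2 : c.m.J (h x (c.Φ x)) = h x (c.m.J (c.Φ x)) := congrArg (· (c.Φ x)) (hh.iso.J x trivial)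
  rw [eq_sub_iff_add_eq', h1, ha, h2]
  simp [rot, Dec35.ph]

theorem nab_hs {T : M → En (Fin c.m.N)} (hT : Sm I T) (i : ι) :
    nab I G.F.e (c.m.adW c.W) i (fun x => hsL (T x)) x =
      hsL (G.F.D i T x + (c.W i x * T x - T x * c.W i x)) := by
  rw [nab, dv_clm hsL (hT.mdifferentiableAt (by simp)), map_add, Md.adW, Wz78.adc_apply, opL_hsL]
  rfl

theorem nab_kp (ha : fa (a x) = 0) (i : ι) :
    nab I G.F.e (c.m.adW c.W) i (kp c h) x = -hsL (opL (fa (b x) i) * h x) := by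
  have h1 : G.F.D i h x + (c.W i x + opL (fa (b x) i)) * h x - h x * (c.W i x + opL (fa (a x) i)) = 0 :=
    hh.par x trivial i
  have h2 : G.F.D i c.m.p x + _ = 0 := hc.conn.cc.par i x
  have s : Sm I h := fun x => hh.iso.su x trivial
  refine (nab_hs hc hh (s.sub hc.ok.sp) i).trans ?_
  rw [← map_neg, show G.F.D i (fun x => h x - c.m.p x) x = G.F.D i h x - G.F.D i c.m.p x from
    dv_sub (s.mdifferentiableAt (by simp)) (hc.ok.sp.mdifferentiableAt (by simp)),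
    eq_neg_of_add_eq_zero_left h2]
  rw [ha, PiLp.zero_apply, map_zero, add_zero] at h1
  congr 1
  rw [← sub_eq_zero, ← h1]
  noncomm_ring

include hB

theorem aut (x : M) : xi c h x ∈ c.m.gS x ∧ ‖kp c h x‖ ≤ 8 ∧ Grp76.ph c.m x (kp c h x) = kp c h x := by
  have H := Std94.pmx hc.ok x
  obtain ⟨t, ξ, hξ, e, n⟩ := Std94.iso0_aut (m := c.m) hB H hh.iso (mem_univ x)
  have e1 : h x - c.m.p x = (t - 1) • c.m.p x + opL ξ := by rw [e]; module
  have e2 : ⟪kp c h x, kp c h x⟫_ℝ = 32 * (1 - t) := by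
    rw [kp, e1, Wz78.inner_trn, Std94.trn_comm H _ hξ, (Std94.comm_norm hB H _ hξ).1, map_smul, Wz78.trE_eq,
      H.prk, smul_eq_mul]
    linarith
  refine ⟨?_, ?_, (Grp76.ph_iff hB hc.ok _).2 ((Std94.itx_iff hB H _).2 ⟨_, _, hξ, (opL_hsL _).trans e1⟩)⟩
  · rw [xi, e2, kp, e1, map_add, map_smul, hsL_opL]
    convert hξ using 1
    module
  · rw [real_inner_self_eq_norm_sq] at e2
    nlinarith [norm_nonneg (kp c h x), sq_nonneg ‖ξ‖, sq_nonneg (t + 1)]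

omit hB in
theorem nab_xi (hb : Tg B c b) (ha : fa (a x) = 0) (i : ι) :
    fa (b x) i + nab I G.F.e (c.m.adW c.W) i (xi c h) x = -hsL (opL (fa (b x) i) * opL (kp c h x)) +
      ((1 / 16 : ℝ) * ⟪nab I G.F.e (c.m.adW c.W) i (kp c h) x, kp c h x⟫_ℝ) • hsL (c.m.p x) := by
  have s := sm_kp hc hh
  have s2 := Ell97.sm_inner s s
  have m : fa (b x) i ∈ c.m.gS x := by
    have : c.m.p1 B x (fa (b x)) = fa (b x) := (f2_ps _ _).symm.trans (congrArg fa (hb x))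
    rw [← this, Md.p1, Wz78.idx_apply]
    exact Submodule.sum_mem _ fun _ _ => Submodule.smul_mem _ _ (Wz78.pg_mem _ _)
  have e1 := (nab_hs (x := x) hc hh hc.ok.sp i).trans ((congrArg hsL (hc.conn.cc.par i x)).trans (map_zero _))
  have e2 : dv I (G.F.e i) (fun y => (1 / 32 : ℝ) * ⟪kp c h y, kp c h y⟫_ℝ) x =
      (1 / 16 : ℝ) * ⟪nab I G.F.e (c.m.adW c.W) i (kp c h) x, kp c h x⟫_ℝ := by
    have := Wz78.Skew.self (Wz78.adc_skw (hc.conn.sk i x)) (kp c h x)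
    refine (dv_const_smul (1 / 32 : ℝ) (s2.mdifferentiableAt (by simp))).trans ?_
    rw [← Pre.D_def, Ell97.D_inner G.F.toPre i s s, nab, inner_add_left, Md.adW, this, real_inner_comm (G.F.D i _ x)]
    simp only [Pre.D_def, smul_eq_mul]
    ring
  have s3 : Sm I fun y => (1 / 32 : ℝ) * ⟪kp c h y, kp c h y⟫_ℝ := contMDiff_const.mul s2
  have s4 : Sm I fun y => hsL (c.m.p y) := hsL.contMDiff.comp hc.ok.sp
  have s5 : Sm I fun y => ((1 / 32 : ℝ) * ⟪kp c h y, kp c h y⟫_ℝ) • hsL (c.m.p y) := s3.smul s4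
  rw [show xi c h = fun y => kp c h y + _ • _ from rfl, Wz78.nab_add i (s x) (s5 x), Wz78.nab_smul i (s3 x) (s4 x),
    e1, e2, smul_zero, add_zero, ← add_assoc]
  congr 1
  rw [nab_kp hc hh ha, kp, opL_hsL, mul_sub, Wz78.g_p' hc.ok m, map_sub, hsL_opL]
  abel

variable (h1 : ‖(hsL : CL (En (Fin c.m.N)) c.m.A)‖ ≤ R) (h2 : ‖c.m.J‖ ≤ R) (h3 : ‖c.m.p x‖ + 8 ≤ R)
  (h4 : ‖hsL (c.m.p x)‖ ≤ R) (h5 : ‖c.Φ x‖ ≤ R) (ha : a x = rot c (fun _ => θ) 0 x)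
include h1 h2 h3 h4 h5 ha

theorem est0 : ‖h x (c.Φ x)‖ ≤ R * R ∧ ‖c.m.J (h x (c.Φ x))‖ ≤ R * (R * R) ∧
    ∀ i, ‖nab I G.F.e (c.m.adW c.W) i (kp c h) x‖ ≤ R * R * ‖fa (b x) i‖ := by
  have R0 := (norm_nonneg _).trans h2
  have k1 : ‖h x‖ ≤ R := by
    rw [← add_sub_cancel (c.m.p x) (h x), ← opL_hsL (h x - _)]
    exact (norm_add_le _ _).trans ((add_le_add le_rfl ((nrm_opL _).trans (aut hB hc hh x).2.1)).trans h3)
  have k2 := (h x).le_of_opNorm_le_of_le k1 h5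
  refine ⟨k2, c.m.J.le_of_opNorm_le_of_le h2 k2, fun i => ?_⟩
  rw [nab_kp hc hh (by simp [ha, rot]), norm_neg, mul_assoc, mul_comm R ‖_‖]
  exact hsL.le_of_opNorm_le_of_le h1 ((norm_mul_le _ _).trans
    (mul_le_mul (nrm_opL _) k1 (norm_nonneg _) (norm_nonneg _)))

theorem est1 : ∑ i, ‖nab I G.F.e (c.m.adW c.W) i (kp c h) x‖ ^ 2 + ‖opL (kp c h x) (c.Φ x)‖ ^ 2 ≤
    ((R * R) ^ 2 + 2 + 2 * (R * R + R * (R * R)) ^ 2) * (‖b x‖ ^ 2 + θ ^ 2) := by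
  obtain ⟨k1, k2, k3⟩ := est0 hB hc hh h1 h2 h3 h4 h5 ha
  have e1 := Finset.sum_le_sum fun i (_ : i ∈ Finset.univ) => pow_le_pow_left₀ (norm_nonneg _) (k3 i) 2
  simp only [mul_pow (R * R), ← Finset.mul_sum, ← PiLp.norm_sq_eq_of_L2] at e1
  have e2 : ‖opL (kp c h x) (c.Φ x)‖ ≤ ‖fp (b x)‖ + |θ| * (R * R + R * (R * R)) := by
    rw [show opL (kp c h x) (c.Φ x) = fp (b x) - ((cos θ - cos 0) • h x (c.Φ x) + sin θ • c.m.J (h x (c.Φ x))) by
      rw [kp_Φ hc, phi_eq hc hh ha, cos_zero]; module, mul_add]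
    refine (norm_sub_le _ _).trans (add_le_add le_rfl ((norm_add_le _ _).trans ?_))
    rw [norm_smul, norm_smul]
    exact add_le_add (mul_le_mul ((abs_cos_sub_cos_le _ _).trans_eq (by rw [sub_zero])) k1 (norm_nonneg _)
      (abs_nonneg _)) (mul_le_mul abs_sin_le_abs k2 (norm_nonneg _) (abs_nonneg _))
  have e3 := pow_le_pow_left₀ (norm_nonneg _) e2 2
  rw [sq2 (b x), ← sq_abs θ]
  exact alg1 e1 e3 (sq_nonneg _)

theorem est2 (hb : Tg B c b) : ‖b x - dg G.F c 1 (xi c h) x - i2 _ _ (θ • c.m.J (c.Φ x))‖ ≤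
    (R + R * R * R + (R * R + 2 * (R * (R * R))) + R * R + R) * (‖b x‖ ^ 2 + ‖kp c h x‖ ^ 2 + θ ^ 2) := by
  obtain ⟨k1, k2, k3⟩ := est0 hB hc hh h1 h2 h3 h4 h5 ha
  have R0 := (norm_nonneg _).trans h2
  have n1 := norm_nonneg (kp c h x)
  set w := b x - dg G.F c 1 (xi c h) x - i2 _ _ (θ • c.m.J (c.Φ x))
  have e1 : ∀ i, ‖fa w i‖ ≤ (R + R * R * R) * ‖kp c h x‖ * ‖fa (b x) i‖ := fun i => by
    rw [show fa w i = _ from Eq.trans (by simp [w, fa_dg]) (nab_xi (x := x) hc hh hb (by simp [ha, rot]) i)]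
    have a1 := hsL.le_of_opNorm_le_of_le h1 ((norm_mul_le _ _).trans
      (mul_le_mul (nrm_opL (fa (b x) i)) (nrm_opL (kp c h x)) (norm_nonneg _) (norm_nonneg _)))
    have a2 := mul_le_mul ((abs_real_inner_le_norm _ (kp c h x)).trans (mul_le_mul_of_nonneg_right (k3 i) n1))
      h4 (norm_nonneg _) (by positivity)
    refine (norm_add_le _ _).trans ?_
    rw [norm_neg, norm_smul, norm_mul, Real.norm_eq_abs, Real.norm_eq_abs, abs_of_pos (by norm_num), mul_assoc]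
    have a3 := mul_nonneg (abs_nonneg ⟪nab I G.F.e (c.m.adW c.W) i (kp c h) x, kp c h x⟫_ℝ)
      (norm_nonneg (hsL (c.m.p x)))
    generalize |⟪nab I G.F.e (c.m.adW c.W) i (kp c h) x, kp c h x⟫_ℝ| * ‖hsL (c.m.p x)‖ = Z at a2 a3 ⊢
    linarith
  have e2 : ‖fa w‖ ≤ (R + R * R * R) * (‖kp c h x‖ * ‖b x‖) := by
    refine abs_le_of_sq_le_sq' ?_ (by positivity) |>.2
    rw [PiLp.norm_sq_eq_of_L2, ← mul_assoc, mul_pow, sq2 (b x)]
    refine (Finset.sum_le_sum fun i _ => pow_le_pow_left₀ (norm_nonneg _) (e1 i) 2).trans ?_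
    simp only [mul_pow (_ * ‖kp c h x‖), ← Finset.mul_sum, ← PiLp.norm_sq_eq_of_L2]
    exact mul_le_mul_of_nonneg_left (le_add_of_nonneg_right (sq_nonneg _)) (sq_nonneg _)
  have e3 : ‖fp w‖ ≤ θ ^ 2 * (R * R) + 2 * θ ^ 2 * (R * (R * R)) + |θ| * (R * (‖kp c h x‖ * R)) +
      ‖kp c h x‖ ^ 2 * R := by
    rw [show fp w = (cos θ - 1) • h x (c.Φ x) + (sin θ - θ) • c.m.J (h x (c.Φ x)) +
        θ • c.m.J (opL (kp c h x) (c.Φ x)) - ((1 / 32 : ℝ) * ‖kp c h x‖ ^ 2) • c.Φ x by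
      simp only [w, map_sub, fp_dg, s2_i2, phi_eq hc hh ha, xi, map_add, map_smul, opL_hsL, add_apply,
        smul_apply, kp_Φ hc, p_Φ hc, real_inner_self_eq_norm_sq]
      module]
    refine (norm_sub_le _ _).trans (add_le_add ((norm_add₃_le).trans ?_) ?_) <;> simp only [norm_smul]
    · refine add_le_add (add_le_add (mul_le_mul (abs_le.2 ⟨?_, ?_⟩) k1 (norm_nonneg _) (sq_nonneg _))
        (mul_le_mul (abs_sin_sub θ) k2 (norm_nonneg _) (by positivity))) (mul_le_mul_of_nonneg_left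
          (c.m.J.le_of_opNorm_le_of_le h2 ((opL _).le_of_opNorm_le_of_le (nrm_opL _) h5)) (abs_nonneg _))
      · nlinarith [one_sub_sq_div_two_le_cos (x := θ)]
      · nlinarith [cos_le_one θ]
    · refine mul_le_mul ?_ h5 (norm_nonneg _) (sq_nonneg _)
      rw [Real.norm_of_nonneg (by positivity)]
      nlinarith
  have e4 : ‖w‖ ≤ ‖fa w‖ + ‖fp w‖ := abs_le_of_sq_le_sq' (by
    rw [sq2]; nlinarith [mul_nonneg (norm_nonneg (fa w)) (norm_nonneg (fp w))]) (by positivity) |>.2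
  rw [← sq_abs θ] at e3 ⊢
  exact e4.trans (alg2 e2 e3 R0)

end gen

variable {E3 : Type} [NormedAddCommGroup E3] [NormedSpace ℝ E3] [FiniteDimensional ℝ E3]
  [MeasurableSpace E3] [BorelSpace E3]
  {H3 : Type} [TopologicalSpace H3] {I3 : ModelWithCorners ℝ E3 H3} [I3.Boundaryless]
  {Y : Type} [TopologicalSpace Y] [ChartedSpace H3 Y] [IsManifold I3 ∞ Y] [T2Space Y]
  [MeasurableSpace Y] [BorelSpace Y] [SecondCountableTopology Y] [CompactSpace Y]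
  {κ : Type} [Fintype κ] {lam : Type} [Fintype lam] {D : YD I3 Y κ lam} {β : YC Y κ lam}

theorem poiH (hD : D.OK) (hβ : D.Adm β) [PreconnectedSpace Y] {y₀ : Y} (h0 : β.Φ y₀ ≠ 0) :
    ∃ c ≥ 0, ∀ (k : Y → β.m.A) (g : Y → ℝ), Sm I3 k → Continuous g → (∀ y, Grp76.ph β.m y (k y) = k y) →
      (∀ y, ∑ a, ‖nab I3 D.F.e (aY β) a k y‖ ^ 2 + ‖opL (k y) (β.Φ y)‖ ^ 2 ≤ g y) →
      ∫ y, ‖k y‖ ^ 2 ∂D.F.μ ≤ c * ∫ y, g y ∂D.F.μ := by
  have sg : Sm I3 (Grp76.ph β.m) := sm_slice_fst (sm_ph hD.B hβ.adm) 0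
  have sΦ : Sm I3 β.Φ := sm_slice_fst hβ.adm.sm 0
  obtain ⟨c, c0, h⟩ := poi_gen D.F (dimY hD) (sm_aY hβ) (sk_aY hβ)
    (T := fun y => pr2 (evP (β.Φ y)) (1 - Grp76.ph β.m y))
    (sm_pr2 (evP.contMDiff.comp sΦ) (contMDiff_const.sub sg)) fun k hk h1 h2 => funext fun y => by
    obtain ⟨r, hr⟩ := par_const (sk_aY hβ) hk h1
    have e1 := congrArg (s2 _ _) (h2 y₀)
    have e2 := congrArg (f2 _ _) (h2 y₀)
    rw [s2_pr2, map_zero] at e1
    rw [f2_pr2, map_zero] at e2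
    exact inner_self_eq_zero.1 ((hr y).trans ((hr y₀).symm.trans
      (ker_pt (x := (y₀, 0)) hD.B hβ.adm (sub_eq_zero.1 (show k y₀ - _ = 0 from e1)).symm e2 h0)))
  refine ⟨c, c0, fun ξ g hξ hg h1 h2 => h ξ g hξ hg fun y => le_trans (le_of_eq ?_) (h2 y)⟩
  rw [sq2, f2_pr2, s2_pr2, show (1 - Grp76.ph β.m y) (ξ y) = 0 from sub_eq_zero.2 (h1 y).symm]
  simp [evP]

theorem fin {V W : Type} [NormedAddCommGroup V] [InnerProductSpace ℝ V] [NormedAddCommGroup W]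
    (F : Pre I3 Y κ) {n b d j : Y → V} {k : Y → W} {θ R c C1 C2 : ℝ} (cn : Continuous n) (cb : Continuous b)
    (cd : Continuous d) (cj : Continuous j) (ck : Continuous k) (h1 : ∫ y, ⟪n y, d y⟫_ℝ ∂F.μ = 0)
    (h2 : ∫ y, ⟪n y, j y⟫_ℝ ∂F.μ = 1) (h3 : ∀ y, ‖n y‖ ≤ R) (R0 : 0 ≤ R) (c0 : 0 ≤ c) (c1 : 0 ≤ C1) (c2 : 0 ≤ C2)
    (h4 : ∀ y, ‖b y - d y - θ • j y‖ ≤ C2 * (‖b y‖ ^ 2 + ‖k y‖ ^ 2 + θ ^ 2))
    (h5 : ∫ y, ‖k y‖ ^ 2 ∂F.μ ≤ c * ∫ y, C1 * (‖b y‖ ^ 2 + θ ^ 2) ∂F.μ) :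
    |∫ y, ⟪n y, b y⟫_ℝ ∂F.μ - 1 * θ| ≤ R * C2 * ((1 + c * C1) * (1 + F.μ.real univ)) *
      (√(∫ y, ‖b y‖ ^ 2 ∂F.μ) + |1 * θ|) ^ 2 := by
  have ib : Integrable (fun y => ‖b y‖ ^ 2) F.μ := int_c F (by fun_prop)
  have ik : Integrable (fun y => ‖k y‖ ^ 2) F.μ := int_c F (by fun_prop)
  have it : Integrable (fun _ => θ ^ 2) F.μ := int_c F continuous_const
  have e1 : ∫ y, ⟪n y, b y - d y - θ • j y⟫_ℝ ∂F.μ = ∫ y, ⟪n y, b y⟫_ℝ ∂F.μ - 1 * θ := by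
    simp only [inner_sub_right, real_inner_smul_right]
    rw [integral_sub (int_c F (by fun_prop)) (int_c F (by fun_prop)),
      integral_sub (int_c F (by fun_prop)) (int_c F (by fun_prop)), integral_const_mul, h1, h2]
    ring
  have e2 := norm_integral_le_of_norm_le (f := fun y => ⟪n y, b y - d y - θ • j y⟫_ℝ)
    ((((ib.add ik).add it).const_mul C2).const_mul R) (.of_forall fun y => (norm_inner_le_norm _ _).trans
      (mul_le_mul (h3 y) (h4 y) (norm_nonneg _) R0))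
  rw [integral_const_mul, integral_add ib it, integral_const] at h5
  simp only [Pi.add_apply] at e2
  rw [e1, integral_const_mul, integral_const_mul, integral_add (by exact ib.add ik) it, integral_add ib ik,
    integral_const] at e2
  have s0 : 0 ≤ ∫ y, ‖b y‖ ^ 2 ∂F.μ := integral_nonneg fun y => sq_nonneg _
  refine e2.trans ?_
  rw [mul_assoc, mul_assoc, one_mul, add_sq, sq_sqrt s0, sq_abs]
  refine mul_le_mul_of_nonneg_left (mul_le_mul_of_nonneg_left ?_ c2) R0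
  have m0 : 0 ≤ F.μ.real univ := measureReal_nonneg
  have a1 : ∫ y, ‖b y‖ ^ 2 ∂F.μ + F.μ.real univ • θ ^ 2 ≤ (1 + F.μ.real univ) *
      (∫ y, ‖b y‖ ^ 2 ∂F.μ + 2 * √(∫ y, ‖b y‖ ^ 2 ∂F.μ) * |θ| + θ ^ 2) := by
    have : 0 ≤ 2 * √(∫ y, ‖b y‖ ^ 2 ∂F.μ) * |θ| := by positivity
    rw [smul_eq_mul]
    nlinarith [mul_nonneg m0 s0, mul_nonneg m0 this, sq_nonneg θ]
  nlinarith [mul_le_mul_of_nonneg_left a1 (mul_nonneg c0 c1)]

theorem phs : PhStmt I3 Y κ lam := by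
  intro D β hD hβ hY n ν hn
  rcases hn.alt with rfl | ⟨rfl, rfl⟩
  swap
  · exact ⟨0, le_rfl, fun _ _ _ _ _ _ _ _ _ _ _ => by simp [row]⟩
  obtain ⟨y₀, h0⟩ : ∃ y, β.Φ y ≠ 0 := by
    by_contra! h
    have := hn.J
    simp only [h, map_zero] at this
    exact zero_ne_one (Eq.trans (integral_eq_zero_of_ae (.of_forall fun _ => inner_zero_right _)).symm this)
  obtain ⟨c, c0, hP⟩ := poiH hD hβ h0
  have cΦ : Continuous β.Φ := (sm_slice_fst hβ.adm.sm 0).continuous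
  have cp : Continuous β.m.p := (sm_slice_fst hβ.adm.ok.sp 0).continuous
  have cn := hn.sm.continuous
  obtain ⟨R, hR⟩ := (isCompact_range (f := fun y => ‖(hsL : CL (En (Fin β.m.N)) β.m.A)‖ + ‖β.m.J‖ +
    (‖β.m.p y‖ + 8) + ‖hsL (β.m.p y)‖ + ‖β.Φ y‖ + ‖n y‖) (by fun_prop)).bddAbove
  have k : ∀ y, ‖(hsL : CL (En (Fin β.m.N)) β.m.A)‖ ≤ R ∧ ‖β.m.J‖ ≤ R ∧ ‖β.m.p y‖ + 8 ≤ R ∧
      ‖hsL (β.m.p y)‖ ≤ R ∧ ‖β.Φ y‖ ≤ R ∧ ‖n y‖ ≤ R := fun y => by
    have := hR ⟨y, rfl⟩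
    refine ⟨?_, ?_, ?_, ?_, ?_, ?_⟩ <;> linarith [norm_nonneg (hsL : CL (En (Fin β.m.N)) β.m.A),
      norm_nonneg β.m.J, norm_nonneg (β.m.p y), norm_nonneg (hsL (β.m.p y)), norm_nonneg (β.Φ y),
      norm_nonneg (n y)]
  have R0 := (norm_nonneg _).trans (k y₀).2.1
  refine ⟨R * (R + R * R * R + (R * R + 2 * (R * (R * R))) + R * R + R) * ((1 + c * ((R * R) ^ 2 + 2 +
    2 * (R * R + R * (R * R)) ^ 2)) * (1 + D.F.μ.real univ)), ?_, fun a b h t θ _ sb _ hb hh ha => ?_⟩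
  rotate_left
  · have s1 := sm_kp hβ.adm hh
    have s2 := sm_xi hβ.adm hh
    have ct : Continuous fun y : Y => (y, t) := continuous_id.prodMk continuous_const
    have cb : Continuous fun y => b (y, t) := sb.continuous.comp ct
    have e1 := fun y => est1 (x := (y, t)) hD.B hβ.adm hh (k y).1 (k y).2.1 (k y).2.2.1 (k y).2.2.2.1
      (k y).2.2.2.2.1 (ha y)
    have e2 := fun y => est2 (x := (y, t)) hD.B hβ.adm hh (k y).1 (k y).2.1 (k y).2.2.1 (k y).2.2.2.1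
      (k y).2.2.2.2.1 (ha y) hb
    have e3 := hP (fun y => kp (cy β) h (y, t)) _ (sm_slice_fst s1 t)
      (continuous_const.mul ((cb.norm.pow 2).add continuous_const))
      (fun y => (aut hD.B hβ.adm hh (y, t)).2.2) fun y => (add_le_add (sum_sl s1 (y, t)) le_rfl).trans (e1 y)
    simp only [(i2 _ _).map_smul] at e2
    have c1 : Continuous fun y => dg D.Z (cy β) 1 (xi (cy β) h) (y, t) :=
      (cont_dg (sm_W hβ) hβ.adm.sm s2).comp ct
    have c2 : Continuous fun y => i2 (Fm (Option κ) β.m.A) _ (β.m.J (β.Φ y)) :=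
      (i2 _ _).continuous.comp (β.m.J.continuous.comp cΦ)
    have c3 : Continuous fun y => kp (cy β) h (y, t) := s1.continuous.comp ct
    exact fin D.F.toPre cn cb c1 c2 c3 (hn.g _ s2 (fun x => (aut hD.B hβ.adm hh x).1) t)
      (Eq.trans (integral_congr_ae (.of_forall fun y => (inner2 _ _).trans
        ((congrArg (· + _) (inner_zero_right _)).trans (zero_add _)))) hn.J)
      (fun y => (k y).2.2.2.2.2) R0 c0 (by positivity) (by positivity) e2 e3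
  · have : 0 ≤ D.F.μ.real univ := measureReal_nonneg
    positivity

end Crest.Agent.X212.Hm83
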