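import Crest.Agent.X212.Dec35.Defs
import Crest.Agent.X212.Mon62.Nem0

/-!
# Row 212, DEC-HM (helper83): an almost parallel contraction is a multiplier
-/

set_option autoImplicit false
set_option linter.unusedSectionVars false
noncomputable section
open scoped Manifold ContDiff Topology InnerProductSpace
open MeasureTheory Set Function Filter Real

namespace Crest.Agent.X212.Hm83
open An Sob92 Dec35

variable {E : Type} [NormedAddCommGroup E] [NormedSpace ℝ E] [FiniteDimensional ℝ E]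
  [MeasurableSpace E] [BorelSpace E]
  {HM : Type} [TopologicalSpace HM] {I : ModelWithCorners ℝ E HM} [I.Boundaryless]
  {M : Type} [TopologicalSpace M] [ChartedSpace HM M] [IsManifold I ∞ M] [MeasurableSpace M]
  [T2Space M] [BorelSpace M] [SecondCountableTopology M] {ι : Type} [Fintype ι]
  {N : Type} [NormedAddCommGroup N] [NormedSpace ℝ N]
  {U V W : Type} [NormedAddCommGroup U] [InnerProductSpace ℝ U] [FiniteDimensional ℝ U]
  [NormedAddCommGroup V] [InnerProductSpace ℝ V] [FiniteDimensional ℝ V]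
  [NormedAddCommGroup W] [InnerProductSpace ℝ W] [FiniteDimensional ℝ W]
  {F : Fr I M ι} {C : ℕ → ℝ}

theorem ex_is (hF : F.Tame C) {u : M → V} (hu : Fl F.toPre u) (k : ℕ) :
    ∃ h : F.H k (triv M V), Is F.toPre k _ h u := exists_Is hF.exh hu.sm (hu.fl k) fun _ => rfl

theorem fl_CB (hF : F.Tame C) {u : M → V} (hu : Fl F.toPre u) (n : ℕ) :
    F.CB n u (√|C 0| * F.nrm (n + 4) u) := by
  obtain ⟨h, H⟩ := ex_is hF hu (n + 4)
  rw [← H.norm hu.sm, ← H.val_eq (Sup.of_tame hF) (by omega) hu.sm.continuous]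
  exact CB_val (Sup.of_tame hF) n le_rfl h

theorem fl_cb (hF : F.Tame C) {u : M → V} (hu : Fl F.toPre u) : F.Cb u := ⟨_, hu.sm, fl_CB hF hu⟩

theorem fl_app {f : M → V →L[ℝ] W} {u : M → V} (hf : F.Cb f) (hu : Fl F.toPre u) :
    Fl F.toPre fun x => f x (u x) :=
  let ⟨_, h⟩ := hf
  ⟨h.1.clm_apply hu.sm, fun k => (N2_mul (.id ℝ (V →L[ℝ] W)) h.1 hu.sm (h.2 k) (hu.fl k)).1⟩

theorem fl_D {u : M → N} (hu : Fl F.toPre u) (a : ι) : Fl F.toPre (F.D a u) :=
  ⟨F.sm_D hu.sm a, fun k => (hu.fl (k + 1)).2 a⟩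

theorem fl_add {u v : M → N} (hu : Fl F.toPre u) (hv : Fl F.toPre v) : Fl F.toPre (u + v) :=
  ⟨hu.sm.add hv.sm, fun k => ML.add F.sm hu.sm hv.sm (hu.fl k) (hv.fl k)⟩

theorem nrm_add (hF : F.Tame C) {u v : M → V} (hu : Fl F.toPre u) (hv : Fl F.toPre v) (k : ℕ) :
    F.nrm k (u + v) ≤ F.nrm k u + F.nrm k v := by
  obtain ⟨g, G⟩ := ex_is hF hu k
  obtain ⟨h, H⟩ := ex_is hF hv k
  rw [← G.norm hu.sm, ← H.norm hv.sm, ← (G.add H).norm (hu.sm.add hv.sm)]
  exact norm_add_le _ _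

theorem nrm_sub (hF : F.Tame C) {u v : M → V} (hu : Fl F.toPre u) (hv : Fl F.toPre v) (k : ℕ) :
    F.nrm k (u - v) ≤ F.nrm k u + F.nrm k v := by
  obtain ⟨g, G⟩ := ex_is hF hu k
  obtain ⟨h, H⟩ := ex_is hF hv k
  rw [← G.norm hu.sm, ← H.norm hv.sm, ← (G.sub H).norm (hu.sm.sub hv.sm)]
  exact norm_sub_le _ _

theorem nrm_bil' (hF : F.Tame C) {k j l : ℕ} (h : Lev k j l) (β : U →L[ℝ] V →L[ℝ] W) {u : M → U}
    {v : M → V} (hu : Fl F.toPre u) (hv : Fl F.toPre v) :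
    F.nrm l (fun x => β (u x) (v x)) ≤ cB ι k l (C 0) ‖β‖ * F.nrm k u * F.nrm j v := by
  obtain ⟨g, G⟩ := ex_is hF hu k
  obtain ⟨h', H⟩ := ex_is hF hv j
  rw [← G.norm hu.sm, ← H.norm hv.sm, ← (G.bilH (Sup.of_tame hF) h (Cb_const β) (Maps₂.triv _) H).norm
    (smooth_bil β hu.sm hv.sm)]
  exact norm_bilH_le (Sup.of_tame hF) h contMDiff_const (CB_const k β) (Maps₂.triv _) g h'

/-- a bounded solution of a linear equation with bounded coefficients is bounded in all orders -/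
theorem cb_ode {T : M → V →L[ℝ] W} {A : ι → M → V →L[ℝ] V} {A' : ι → M → W →L[ℝ] W} (hT : Sm I T)
    (h1 : ∀ x, ‖T x‖ ≤ 1) (hA : ∀ a, F.Cb (A a)) (hA' : ∀ a, F.Cb (A' a))
    (e : ∀ a x, F.D a T x = T x ∘L A a x - A' a x ∘L T x) : F.Cb T := by
  suffices h : ∀ n, ∃ c, F.CB n T c from let ⟨c, h⟩ := Classical.skolem.1 h; ⟨c, hT, h⟩
  intro n
  induction n with
  | zero => exact ⟨1, CB_zero.2 h1⟩
  | succ n ih =>
    obtain ⟨c, hc⟩ := ih
    have : ∀ a, ∃ c, F.CB n (F.D a T) c := fun a => by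
      obtain ⟨_, k⟩ := hA a
      obtain ⟨_, k'⟩ := hA' a
      have s := smooth_bil (ContinuousLinearMap.compL ℝ V W W) k'.1 hT
      rw [funext (e a)]
      simp only [sub_eq_add_neg]
      exact ⟨_, CB_add (smooth_bil (ContinuousLinearMap.compL ℝ V V W) hT k.1) s.neg
        (CB_bil (ContinuousLinearMap.compL ℝ V V W) hT k.1 hc (k.2 n))
        (CB_neg s (CB_bil (ContinuousLinearMap.compL ℝ V W W) k'.1 hT (k'.2 n) hc))⟩
    choose d hd using this
    obtain ⟨b, hb⟩ := Finite.exists_le d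
    exact ⟨max 1 b, CB_succ.2 ⟨fun x => (h1 x).trans (le_max_left _ _),
      fun a => CB_mono (hd a) ((hb a).trans (le_max_right _ _))⟩⟩

theorem hm : HmStmt I M ι := by
  intro F C hF U X X' _ _ _ _ _ _ _ _ _ ρ k hk C0
  suffices h : ∀ n ≤ k + 1, ∃ K ≥ 0,
    ∀ (T : M → X →L[ℝ] X') (A : ι → M → X →L[ℝ] X) (A' : ι → M → X' →L[ℝ] X') (α : M → U),
      Sm I T → (∀ x, ‖T x‖ ≤ 1) → (∀ a, F.Cb (A a) ∧ F.CB k (A a) C0) →
      (∀ a, F.Cb (A' a) ∧ F.CB k (A' a) C0) → Fl F.toPre α → F.nrm k α ≤ 1 →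
      (∀ a x, F.D a T x = T x ∘L A a x - (A' a x + ρ a (α x)) ∘L T x) → F.Cb T →
      ∀ j ≤ n, ∀ w : M → X, Fl F.toPre w → F.nrm j (fun x => T x (w x)) ≤ K * F.nrm j w by
    obtain ⟨K, h0, h⟩ := h _ le_rfl
    refine ⟨K, h0, fun T A A' α hT h1 hA hA' hα h2 e => ?_⟩
    have := cb_ode hT h1 (fun a => (hA a).1) (fun a => Cb_add (hA' a).1 (Cb_clm (ρ a) (fl_cb hF hα))) e
    exact ⟨this, h T A A' α hT h1 hA hA' hα h2 e this⟩
  intro n
  induction n with
  | zero =>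
    refine fun _ => ⟨_, mul_nonneg (cK_nonneg (ι := ι) 0) (abs_nonneg 1), fun T _ _ _ hT h1 _ _ _ _ _ _ j hj w hw => ?_⟩
    obtain rfl := Nat.le_zero.1 hj
    exact nrm_app hT hw.sm (CB_zero.2 h1) (hw.fl 0)
  | succ n ih =>
    intro hn
    obtain ⟨K, h0, h⟩ := ih (by omega)
    have c1 : 0 ≤ cK ι n * |C0| := mul_nonneg (cK_nonneg n) (abs_nonneg _)
    have c2 : ∀ a, 0 ≤ K * (1 + 2 * (cK ι n * |C0|) + cB ι k n (C 0) ‖ρ a‖) := fun a =>
      mul_nonneg h0 (add_nonneg (by positivity) (cB_nonneg _ _))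
    have c3 := Finset.sum_nonneg fun a (_ : a ∈ Finset.univ) => c2 a
    refine ⟨_, add_nonneg h0 c3, fun T A A' α hT h1 hA hA' hα h2 e hc j hj w hw => ?_⟩
    have h := h T A A' α hT h1 hA hA' hα h2 e hc
    have w0 := nrm_nonneg (F := F.toPre) j w
    rcases hj.lt_or_eq with hj | rfl
    · exact (h j (by omega) w hw).trans (by nlinarith)
    rw [add_mul, Finset.sum_mul]
    refine (Mon62.nrm_succ_le n _).trans (add_le_add ((h 0 n.zero_le w hw).trans
      (mul_le_mul_of_nonneg_left (nrm_mono (by omega) w) h0)) (Finset.sum_le_sum fun a _ => ?_))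
    have e' : F.D a (fun x => T x (w x)) = (fun x => T x (A a x (w x))) + (fun x => T x (F.D a w x)) -
        ((fun x => A' a x (T x (w x))) + fun x => ρ a (α x) (T x (w x))) := funext fun x => by
      rw [F.D_def, dv_app (hT.mdifferentiableAt (by simp)) (hw.sm.mdifferentiableAt (by simp)), ← F.D_def, e]
      simp [F.D_def]
      abel
    have f1 := fl_app (hA a).1 hw
    have f2 := fl_D hw a
    have f3 := fl_app hc hw
    have f4 := fl_app (hA' a).1 f3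
    have f5 := fl_app (Cb_clm (ρ a) (fl_cb hF hα)) f3
    have b0 := nrm_mono (F := F.toPre) n.le_succ w
    have b1 := (h n le_rfl _ f1).trans (mul_le_mul_of_nonneg_left ((nrm_app (hA a).1.choose_spec.1 hw.sm
      (CB_of_le (hA a).2 (by omega)) (hw.fl n)).trans (mul_le_mul_of_nonneg_left b0 c1)) h0)
    have b2 := (h n le_rfl _ f2).trans (mul_le_mul_of_nonneg_left (nrm_D_le n w a) h0)
    have b3 := (h n le_rfl _ hw).trans (mul_le_mul_of_nonneg_left b0 h0)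
    have b4 := (nrm_app (hA' a).1.choose_spec.1 f3.sm (CB_of_le (hA' a).2 (by omega)) (f3.fl n)).trans
      (mul_le_mul_of_nonneg_left b3 c1)
    have b5 := (nrm_bil' hF (Lev.left hk (by omega : n ≤ k)) (ρ a) hα f3).trans (mul_le_mul
      (mul_le_of_le_one_right (cB_nonneg _ _) h2) b3 (nrm_nonneg _ _) (cB_nonneg _ _))
    have a1 := nrm_add hF (fl_app hc f1) (fl_app hc f2) n
    have a2 := nrm_add hF f4 f5 n
    have a3 := nrm_sub hF (fl_add (fl_app hc f1) (fl_app hc f2)) (fl_add f4 f5) n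
    rw [e']
    linarith

end Crest.Agent.X212.Hm83
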